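import Vale.Agent.Helper12.PackCheck

/-!
Generated certificate data: no perfect distribution of the shifted positives into the shifted
slots (see the module that imports this file for the statement proved from it).
-/

namespace Vale.Agent.Helper12.P302Data

open Vale.Agent.Helper12

/-- slot thresholds -/
def slots : List ℕ := [129, 134, 136, 145, 160, 162, 166, 187, 272, 276, 283, 418, 807, 810, 817]

/-- positives (the last ones are padding values that fit no slot with a partner) -/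
def pos : List ℕ := [1, 36, 41, 60, 68, 70, 70, 78, 80, 81, 82, 83, 84, 85, 86, 133, 136, 138, 139, 141, 143, 144, 400, 403, 405, 406, 408, 410, 411, 817, 817]

/-- shifted capacities: two single places and the slots -/
def capsK : List ℕ := [1817, 1817, 2129, 2134, 2136, 2145, 2160, 2162, 2166, 2187, 2272, 2276, 2283, 2418, 2807, 2810, 2817]

/-- shifted items -/
def itemsK : List ℕ := [1001, 1036, 1041, 1060, 1068, 1070, 1070, 1078, 1080, 1081, 1082, 1083, 1084, 1085, 1086, 1133, 1136, 1138, 1139, 1141, 1143, 1144, 1400, 1403, 1405, 1406, 1408, 1410, 1411, 1817, 1817]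

def pool : List Dual := [
  ⟨100000, [(1001, 78667), (1036, 66667), (1041, 66667), (1060, 60667), (1068, 39334), (1070, 39334), (1078, 37334), (1080, 35334), (1081, 35334), (1082, 35334), (1083, 33334), (1084, 33334), (1085, 33334), (1086, 33334), (1133, 33334), (1136, 33334), (1138, 33334), (1139, 33334)],
    [(2137, 21334), (2146, 6000), (2161, 2000), (2163, 2000), (2167, 2000), (2188, 33334), (2284, 33334)]⟩,
  ⟨100000, [(1001, 78667), (1036, 66667), (1041, 66667), (1060, 60667), (1068, 39334), (1070, 39334), (1078, 37334), (1080, 35334), (1081, 35334), (1082, 35334), (1083, 33334), (1084, 33334), (1085, 33334), (1086, 33334), (1133, 33334), (1136, 33334)],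
    [(2137, 21334), (2146, 6000), (2161, 2000), (2163, 2000), (2167, 2000), (2188, 33334), (2277, 33334)]⟩,
  ⟨100000, [(1001, 78667), (1036, 66667), (1041, 66667), (1060, 60667), (1068, 39334), (1070, 39334), (1078, 37334), (1080, 35334), (1081, 35334), (1082, 35334), (1083, 33334), (1084, 33334), (1085, 33334), (1086, 33334), (1133, 33334)],
    [(2137, 21334), (2146, 6000), (2161, 2000), (2163, 2000), (2167, 2000), (2188, 33334), (2273, 33334)]⟩,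
  ⟨100000, [(1001, 90889), (1036, 66667), (1041, 66667), (1060, 57556), (1068, 57556), (1070, 57556), (1078, 57556), (1080, 57556), (1081, 57556), (1082, 57556), (1083, 33334), (1084, 33334), (1085, 33334), (1086, 33334), (1133, 22223), (1136, 11112), (1138, 11112), (1139, 11112)],
    [(2137, 9112), (2167, 24223), (2188, 33334), (2273, 11112), (2277, 11112), (2284, 11112)]⟩,
  ⟨100000, [(1001, 91800), (1036, 61200), (1041, 61200), (1060, 61200), (1068, 61200), (1070, 61200), (1078, 61200), (1080, 61200), (1081, 30600), (1082, 30600), (1083, 30600), (1084, 30600), (1085, 30600), (1086, 30600), (1133, 20400), (1136, 10200), (1138, 10200), (1139, 10200)],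
    [(2001, 8200), (2163, 30600), (2188, 30600), (2273, 10200), (2277, 10200), (2284, 10200)]⟩,
  ⟨100000, [(1001, 91800), (1036, 61200), (1041, 61200), (1060, 61200), (1068, 61200), (1070, 61200), (1078, 61200), (1080, 30600), (1081, 30600), (1082, 30600), (1083, 30600), (1084, 30600), (1085, 30600), (1086, 30600), (1133, 20400), (1136, 10200), (1138, 10200), (1139, 10200)],
    [(2001, 8200), (2161, 30600), (2188, 30600), (2273, 10200), (2277, 10200), (2284, 10200)]⟩,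
  ⟨100000, [(1001, 100000), (1036, 94000), (1041, 94000), (1060, 94000), (1068, 6000), (1070, 94000), (1078, 6000), (1080, 6000), (1081, 6000), (1082, 6000), (1083, 6000), (1084, 6000), (1085, 6000), (1086, 6000), (1133, 4000), (1136, 2000), (1138, 2000), (1139, 2000)],
    [(2146, 88000), (2188, 6000), (2273, 2000), (2277, 2000), (2284, 2000)]⟩,
  ⟨100000, [(1001, 96000), (1036, 94000), (1041, 94000), (1060, 94000), (1068, 6000), (1070, 6000), (1078, 6000), (1080, 6000), (1081, 6000), (1082, 6000), (1083, 6000), (1084, 6000), (1085, 6000), (1086, 6000), (1133, 4000), (1136, 2000), (1138, 2000), (1139, 2000)],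
    [(2137, 88000), (2188, 6000), (2273, 2000), (2277, 2000), (2284, 2000)]⟩,
  ⟨100000, [(1001, 87429), (1036, 43715), (1041, 43715), (1060, 43715), (1068, 43715), (1070, 43715), (1078, 43715), (1080, 43715), (1081, 43715), (1082, 43715), (1083, 43715), (1084, 43715), (1085, 43715), (1086, 43715), (1133, 43715), (1136, 43715), (1138, 43715), (1139, 43715), (1141, 43715), (1143, 43715), (1144, 43715), (1400, 29143), (1403, 14572), (1405, 14572), (1406, 14572)],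
    [(2001, 12572), (2419, 43715), (2808, 14572), (2811, 14572)]⟩]

abbrev L := Tok.leaf
abbrev N := Tok.node

def toks0 : List Tok := [N 1817, N 1817, N 1001, L 8, L 8, L 8, L 8, L 8, L 8, L 8, L 8, L 8, L 8, L 8, L 8, L 8, L 8, L 8, L 8, L 8, L 8, L 8, L 8, L 8, N 1060, L 1, L 7, L 7, N 1133, L 1, L 1, L 1, L 1, L 1, L 1, L 1, L 1, L 1, L 1, L 1, L 1, L 1, N 1136, L 0, L 0, L 0, L 0, L 0, L 0, L 0, L 0, L 0, L 0, L 0, L 0, L 0, L 1, L 1, L 1, L 0]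

def toks1 : List Tok := [L 0, L 0, L 0, L 0, L 0, N 1136, L 0, L 0, L 0, L 0, L 0, L 0, L 0, L 0, L 0, L 0, L 0, L 0, L 0, L 1, L 1, L 1, L 0, L 0, L 0, L 0, L 0, L 0, L 2, L 2, L 1, L 1, L 1, L 1, L 1, L 1, L 1, N 1070, L 1, L 6, L 6, N 1078, L 1, L 4, L 4, L 4, N 1080, L 1, L 3, L 3, L 3, L 4, L 4, L 4, L 4, L 1, L 1, L 3, L 3, L 3]

def toks2 : List Tok := [L 3, L 3, L 1, L 1, L 1, L 1, L 1, L 1, N 1080, L 1, L 3, L 3, L 3, L 4, L 4, L 4, L 4, L 1, L 1, L 3, L 3, L 3, L 3, L 3, L 1, L 1, L 1, L 1, L 1, L 1, L 5, L 5, L 4, L 4, L 1, L 1, L 4, L 4, L 4, L 4, L 4, L 1, L 1, L 1, L 1, L 1, L 1, L 6, L 6, L 6, L 6, L 6, L 6, L 6, L 6, L 1, L 1, L 6, L 6, L 6]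

def toks3 : List Tok := [L 6, L 6, L 1, L 1, L 1, L 1, L 1, L 1, L 7, L 7, L 7, L 7, L 7, L 7, L 7, L 7, L 1, L 1, L 7, L 7, L 7, L 7, L 7, L 1, L 1, L 1, L 1, L 1, L 1, N 1060, L 1, L 7, L 7, N 1133, L 1, L 1, L 1, L 1, L 1, L 1, L 1, L 1, L 1, L 1, L 1, L 1, L 1, N 1136, L 0, L 0, L 0, L 0, L 0, L 0, L 0, L 0, L 0, L 0, L 0, L 0]

def toks4 : List Tok := [L 0, L 1, L 1, L 1, L 0, L 0, L 0, L 0, L 0, L 0, N 1136, L 0, L 0, L 0, L 0, L 0, L 0, L 0, L 0, L 0, L 0, L 0, L 0, L 0, L 1, L 1, L 1, L 0, L 0, L 0, L 0, L 0, L 0, L 2, L 2, L 1, L 1, L 1, L 1, L 1, L 1, L 1, N 1070, L 1, L 6, L 6, N 1078, L 1, L 4, L 4, L 4, N 1080, L 1, L 3, L 3, L 3, L 4, L 4, L 4, L 4]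

def toks5 : List Tok := [L 1, L 1, L 3, L 3, L 3, L 3, L 3, L 1, L 1, L 1, L 1, L 1, L 1, N 1080, L 1, L 3, L 3, L 3, L 4, L 4, L 4, L 4, L 1, L 1, L 3, L 3, L 3, L 3, L 3, L 1, L 1, L 1, L 1, L 1, L 1, L 5, L 5, L 4, L 4, L 1, L 1, L 4, L 4, L 4, L 4, L 4, L 1, L 1, L 1, L 1, L 1, L 1, L 6, L 6, L 6, L 6, L 6, L 6, L 6, L 6]

def toks6 : List Tok := [L 1, L 1, L 6, L 6, L 6, L 6, L 6, L 1, L 1, L 1, L 1, L 1, L 1, L 7, L 7, L 7, L 7, L 7, L 7, L 7, L 7, L 1, L 1, L 7, L 7, L 7, L 7, L 7, L 1, L 1, L 1, L 1, L 1, L 1, N 1060, L 1, L 7, L 7, N 1133, L 1, L 1, L 1, L 1, L 1, L 1, L 1, L 1, L 1, L 1, L 1, L 1, L 1, N 1136, L 0, L 0, L 0, L 0, L 0, L 0, L 0]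

def toks7 : List Tok := [L 0, L 0, L 0, L 0, L 0, L 0, L 1, L 1, L 1, L 0, L 0, L 0, L 0, L 0, L 0, N 1136, L 0, L 0, L 0, L 0, L 0, L 0, L 0, L 0, L 0, L 0, L 0, L 0, L 0, L 1, L 1, L 1, L 0, L 0, L 0, L 0, L 0, L 0, L 2, L 2, L 1, L 1, L 1, L 1, L 1, L 1, L 1, N 1070, L 1, L 6, L 6, N 1078, L 1, L 4, L 4, L 4, N 1080, L 1, L 3, L 3]

def toks8 : List Tok := [L 3, L 4, L 4, L 4, L 4, L 1, L 1, L 3, L 3, L 3, L 3, L 3, L 1, L 1, L 1, L 1, L 1, L 1, N 1080, L 1, L 3, L 3, L 3, L 4, L 4, L 4, L 4, L 1, L 1, L 3, L 3, L 3, L 3, L 3, L 1, L 1, L 1, L 1, L 1, L 1, L 5, L 5, L 4, L 4, L 1, L 1, L 4, L 4, L 4, L 4, L 4, L 1, L 1, L 1, L 1, L 1, L 1, L 6, L 6, L 6]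

def toks9 : List Tok := [L 6, L 6, L 6, L 6, L 6, L 1, L 1, L 6, L 6, L 6, L 6, L 6, L 1, L 1, L 1, L 1, L 1, L 1, L 7, L 7, L 7, L 7, L 7, L 7, L 7, L 7, L 1, L 1, L 7, L 7, L 7, L 7, L 7, L 1, L 1, L 1, L 1, L 1, L 1, N 1060, L 1, L 7, L 7, N 1133, L 1, L 1, L 1, L 1, L 1, L 1, L 1, L 1, L 1, L 1, L 1, L 1, L 1, N 1136, L 0, L 0]

def toks10 : List Tok := [L 0, L 0, L 0, L 0, L 0, L 0, L 0, L 0, L 0, L 0, L 0, L 1, L 1, L 1, L 0, L 0, L 0, L 0, L 0, L 0, N 1136, L 0, L 0, L 0, L 0, L 0, L 0, L 0, L 0, L 0, L 0, L 0, L 0, L 0, L 1, L 1, L 1, L 0, L 0, L 0, L 0, L 0, L 0, L 2, L 2, L 1, L 1, L 1, L 1, L 1, L 1, L 1, N 1070, L 1, L 6, L 6, N 1078, L 1, L 4, L 4]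

def toks11 : List Tok := [L 4, N 1080, L 1, L 3, L 3, L 3, L 4, L 4, L 4, L 4, L 1, L 1, L 3, L 3, L 3, L 3, L 3, L 1, L 1, L 1, L 1, L 1, L 1, N 1080, L 1, L 3, L 3, L 3, L 4, L 4, L 4, L 4, L 1, L 1, L 3, L 3, L 3, L 3, L 3, L 1, L 1, L 1, L 1, L 1, L 1, L 5, L 5, L 4, L 4, L 1, L 1, L 4, L 4, L 4, L 4, L 4, L 1, L 1, L 1, L 1]

def toks12 : List Tok := [L 1, L 1, L 6, L 6, L 6, L 6, L 6, L 6, L 6, L 6, L 1, L 1, L 6, L 6, L 6, L 6, L 6, L 1, L 1, L 1, L 1, L 1, L 1, L 7, L 7, L 7, L 7, L 7, L 7, L 7, L 7, L 1, L 1, L 7, L 7, L 7, L 7, L 7, L 1, L 1, L 1, L 1, L 1, L 1, N 1060, L 1, L 7, L 7, N 1133, L 1, L 1, L 1, L 1, L 1, L 1, L 1, L 1, L 1, L 1, L 1]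

def toks13 : List Tok := [L 1, L 1, N 1136, L 0, L 0, L 0, L 0, L 0, L 0, L 0, L 0, L 0, L 0, L 0, L 0, L 0, L 1, L 1, L 1, L 0, L 0, L 0, L 0, L 0, L 0, N 1136, L 0, L 0, L 0, L 0, L 0, L 0, L 0, L 0, L 0, L 0, L 0, L 0, L 0, L 1, L 1, L 1, L 0, L 0, L 0, L 0, L 0, L 0, L 2, L 2, L 1, L 1, L 1, L 1, L 1, L 1, L 1, N 1070, L 1, L 6]

def toks14 : List Tok := [L 6, N 1078, L 1, L 4, L 4, L 4, N 1080, L 1, L 3, L 3, L 3, L 4, L 4, L 4, L 4, L 1, L 1, L 3, L 3, L 3, L 3, L 3, L 1, L 1, L 1, L 1, L 1, L 1, N 1080, L 1, L 3, L 3, L 3, L 4, L 4, L 4, L 4, L 1, L 1, L 3, L 3, L 3, L 3, L 3, L 1, L 1, L 1, L 1, L 1, L 1, L 5, L 5, L 4, L 4, L 1, L 1, L 4, L 4, L 4, L 4]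

def toks15 : List Tok := [L 4, L 1, L 1, L 1, L 1, L 1, L 1, L 6, L 6, L 6, L 6, L 6, L 6, L 6, L 6, L 1, L 1, L 6, L 6, L 6, L 6, L 6, L 1, L 1, L 1, L 1, L 1, L 1, L 7, L 7, L 7, L 7, L 7, L 7, L 7, L 7, L 1, L 1, L 7, L 7, L 7, L 7, L 7, L 1, L 1, L 1, L 1, L 1, L 1, N 1060, L 1, L 7, L 7, N 1133, L 1, L 1, L 1, L 1, L 1, L 1]

def toks16 : List Tok := [L 1, L 1, L 1, L 1, L 1, L 1, L 1, N 1136, L 0, L 0, L 0, L 0, L 0, L 0, L 0, L 0, L 0, L 0, L 0, L 0, L 0, L 1, L 1, L 1, L 0, L 0, L 0, L 0, L 0, L 0, N 1136, L 0, L 0, L 0, L 0, L 0, L 0, L 0, L 0, L 0, L 0, L 0, L 0, L 0, L 1, L 1, L 1, L 0, L 0, L 0, L 0, L 0, L 0, L 2, L 2, L 1, L 1, L 1, L 1, L 1]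

def toks17 : List Tok := [L 1, L 1, N 1070, L 1, L 6, L 6, N 1078, L 1, L 4, L 4, L 4, N 1080, L 1, L 3, L 3, L 3, L 4, L 4, L 4, L 4, L 1, L 1, L 3, L 3, L 3, L 3, L 3, L 1, L 1, L 1, L 1, L 1, L 1, N 1080, L 1, L 3, L 3, L 3, L 4, L 4, L 4, L 4, L 1, L 1, L 3, L 3, L 3, L 3, L 3, L 1, L 1, L 1, L 1, L 1, L 1, L 5, L 5, L 4, L 4, L 1]

def toks18 : List Tok := [L 1, L 4, L 4, L 4, L 4, L 4, L 1, L 1, L 1, L 1, L 1, L 1, L 6, L 6, L 6, L 6, L 6, L 6, L 6, L 6, L 1, L 1, L 6, L 6, L 6, L 6, L 6, L 1, L 1, L 1, L 1, L 1, L 1, L 7, L 7, L 7, L 7, L 7, L 7, L 7, L 7, L 1, L 1, L 7, L 7, L 7, L 7, L 7, L 1, L 1, L 1, L 1, L 1, L 1, N 1060, L 1, L 7, L 7, N 1133, L 1]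

def toks19 : List Tok := [L 1, L 1, L 1, L 1, L 1, L 1, L 1, L 1, L 1, L 1, L 1, L 1, N 1136, L 0, L 0, L 0, L 0, L 0, L 0, L 0, L 0, L 0, L 0, L 0, L 0, L 0, L 1, L 1, L 1, L 0, L 0, L 0, L 0, L 0, L 0, N 1136, L 0, L 0, L 0, L 0, L 0, L 0, L 0, L 0, L 0, L 0, L 0, L 0, L 0, L 1, L 1, L 1, L 0, L 0, L 0, L 0, L 0, L 0, L 2, L 2]

def toks20 : List Tok := [L 1, L 1, L 1, L 1, L 1, L 1, L 1, N 1070, L 1, L 6, L 6, N 1078, L 1, L 4, L 4, L 4, N 1080, L 1, L 3, L 3, L 3, L 4, L 4, L 4, L 4, L 1, L 1, L 3, L 3, L 3, L 3, L 3, L 1, L 1, L 1, L 1, L 1, L 1, N 1080, L 1, L 3, L 3, L 3, L 4, L 4, L 4, L 4, L 1, L 1, L 3, L 3, L 3, L 3, L 3, L 1, L 1, L 1, L 1, L 1, L 1]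

def toks21 : List Tok := [L 5, L 5, L 4, L 4, L 1, L 1, L 4, L 4, L 4, L 4, L 4, L 1, L 1, L 1, L 1, L 1, L 1, L 6, L 6, L 6, L 6, L 6, L 6, L 6, L 6, L 1, L 1, L 6, L 6, L 6, L 6, L 6, L 1, L 1, L 1, L 1, L 1, L 1, L 7, L 7, L 7, L 7, L 7, L 7, L 7, L 7, L 1, L 1, L 7, L 7, L 7, L 7, L 7, L 1, L 1, L 1, L 1, L 1, L 1]

def toks : List Tok := toks0 ++ toks1 ++ toks2 ++ toks3 ++ toks4 ++ toks5 ++ toks6 ++ toks7 ++ toks8 ++ toks9 ++ toks10 ++ toks11 ++ toks12 ++ toks13 ++ toks14 ++ toks15 ++ toks16 ++ toks17 ++ toks18 ++ toks19 ++ toks20 ++ toks21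

theorem check_ok : fullCheck pool 64 toks capsK itemsK 1001 2817 = true := by decide +kernel

theorem not_gfits : ¬ GFits capsK itemsK := fullCheck_sound check_ok

end Vale.Agent.Helper12.P302Data
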