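import Vale.Agent.Helper12.P302Int
import Vale.Agent.Helper6.P302Bridge

/-!
Index form of the pair bound for the 15-slot system: no 14 index-disjoint pairs of positives of
`posL` sit in 14 distinct slots of `slotsL`.
-/

namespace Vale.Agent.Helper12

open Vale.Agent.Helper7.P302

theorem flatMap_triple_coe (m : List (ℕ × ℕ × ℕ)) :
    ((m.flatMap fun t => [t.2.1, t.2.2] : List ℕ) : Multiset ℕ) =
      ((m.map fun t => t.2.1 : List ℕ) : Multiset ℕ) +
        ((m.map fun t => t.2.2 : List ℕ) : Multiset ℕ) := by
  induction m with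
  | nil => simp
  | cons x M ih =>
    have h1 : ((((x :: M).flatMap fun t => [t.2.1, t.2.2] : List ℕ)) : Multiset ℕ) =
        x.2.1 ::ₘ x.2.2 ::ₘ ((M.flatMap fun t => [t.2.1, t.2.2] : List ℕ) : Multiset ℕ) := by
      simp [List.flatMap_cons]
    rw [h1, ih]
    simp only [List.map_cons, ← Multiset.cons_coe, Multiset.cons_add, Multiset.add_cons]
    exact Multiset.cons_swap _ _ _

/-- General index form: `T` index-disjoint pairs in distinct slots give a list of triples. -/
theorem triples_of_index (slots R : List ℕ) (T a b : ℕ) (ha : slots.length = a)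
    (hb : R.length = b) (s : Fin T → Fin a) (p q : Fin T → Fin b)
    (hs : Function.Injective s) (hpq : Function.Injective (Sum.elim p q))
    (hfit : ∀ k, R.getD (p k) 0 + R.getD (q k) 0 ≤ slots.getD (s k) 0) :
    ∃ m : List (ℕ × ℕ × ℕ), m.length = T ∧ (m.map (fun t => t.1)).Subperm slots ∧
      (m.flatMap (fun t => [t.2.1, t.2.2])).Subperm R ∧ ∀ t ∈ m, t.2.1 + t.2.2 ≤ t.1 := by
  classical
  have hp : Function.Injective p := by
    intro i j h
    have := hpq (a₁ := Sum.inl i) (a₂ := Sum.inl j) (by simpa using h)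
    simpa using this
  have hq : Function.Injective q := by
    intro i j h
    have := hpq (a₁ := Sum.inr i) (a₂ := Sum.inr j) (by simpa using h)
    simpa using this
  have hdis : ∀ i j, p i ≠ q j := by
    intro i j h
    have := hpq (a₁ := Sum.inl i) (a₂ := Sum.inr j) (by simpa using h)
    simp at this
  refine ⟨List.ofFn (fun k : Fin T => (slots.getD (s k) 0, R.getD (p k) 0, R.getD (q k) 0)),
    by simp, ?_, ?_, ?_⟩
  · rw [← Multiset.coe_le]
    have e : (((List.ofFn (fun k : Fin T => (slots.getD (s k) 0, R.getD (p k) 0,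
        R.getD (q k) 0))).map (fun t => t.1) : List ℕ) : Multiset ℕ) =
        ((Finset.univ : Finset (Fin T)).val.map s).map (fun i => slots.getD i.1 0) := by
      rw [Multiset.map_map, Fin.univ_val_map, List.map_ofFn]
      rfl
    rw [e]
    exact Vale.Agent.Helper6.P302Bridge.map_getD_le slots a ha _ ((Finset.univ.nodup).map hs)
  · rw [← Multiset.coe_le, flatMap_triple_coe]
    have e1 : (((List.ofFn (fun k : Fin T => (slots.getD (s k) 0, R.getD (p k) 0,
        R.getD (q k) 0))).map (fun t => t.2.1) : List ℕ) : Multiset ℕ) =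
        ((Finset.univ : Finset (Fin T)).val.map p).map (fun i => R.getD i.1 0) := by
      rw [Multiset.map_map, Fin.univ_val_map, List.map_ofFn]
      rfl
    have e2 : (((List.ofFn (fun k : Fin T => (slots.getD (s k) 0, R.getD (p k) 0,
        R.getD (q k) 0))).map (fun t => t.2.2) : List ℕ) : Multiset ℕ) =
        ((Finset.univ : Finset (Fin T)).val.map q).map (fun i => R.getD i.1 0) := by
      rw [Multiset.map_map, Fin.univ_val_map, List.map_ofFn]
      rfl
    rw [e1, e2, ← Multiset.map_add]
    apply Vale.Agent.Helper6.P302Bridge.map_getD_le R b hb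
    rw [Multiset.nodup_add]
    refine ⟨(Finset.univ.nodup).map hp, (Finset.univ.nodup).map hq, ?_⟩
    rw [Multiset.disjoint_left]
    intro x hx hx2
    rw [Multiset.mem_map] at hx hx2
    obtain ⟨i, _, rfl⟩ := hx
    obtain ⟨j, _, hj⟩ := hx2
    exact hdis i j hj.symm
  · intro t ht
    obtain ⟨k, rfl⟩ := (List.mem_ofFn).1 ht
    exact hfit k

/-- No 14 index-disjoint pairs of positives of `posL` sit in 14 distinct slots of `slotsL`. -/
theorem hD_index (s : Fin 14 → Fin 15) (p q : Fin 14 → Fin 31) (hs : Function.Injective s)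
    (hpq : Function.Injective (Sum.elim p q))
    (hfit : ∀ k, posL.getD (p k) 0 + posL.getD (q k) 0 ≤ slotsL.getD (s k) 0) : False := by
  obtain ⟨m, hlen, h1, h2, h3⟩ :=
    triples_of_index slotsL posL 14 15 31 (by decide) (by decide) s p q hs hpq hfit
  exact no_fourteen_pairs m hlen h1 h2 h3

end Vale.Agent.Helper12
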