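import Vale.Agent.Helper12.P302Data

/-!
The pair-slot system with 15 slots and 31 positives admits no family of 14 disjoint pairs placed
in 14 distinct slots (`no_fourteen_pairs`).
-/

namespace Vale.Agent.Helper12

open List

theorem subperm_exists_append {α : Type*} {l₁ l₂ : List α} (h : l₁.Subperm l₂) :
    ∃ l, l₂ ~ l₁ ++ l := by
  obtain ⟨l, hl, hs⟩ := h
  obtain ⟨l', hl'⟩ := hs.exists_perm_append
  exact ⟨l', hl'.trans (List.Perm.append_right _ hl)⟩

theorem length_flatMap_pair (m : List (ℕ × ℕ × ℕ)) :
    (m.flatMap (fun t => [t.2.1, t.2.2])).length = 2 * m.length := by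
  induction m with
  | nil => rfl
  | cons t ts ih =>
    simp only [List.flatMap_cons, List.length_append, List.length_cons, List.length_nil, ih]
    omega

theorem flatten_pairs (K : ℕ) (m : List (ℕ × ℕ × ℕ)) :
    (m.map (fun t => [K + t.2.1, K + t.2.2])).flatten =
      (m.flatMap (fun t => [t.2.1, t.2.2])).map (fun p => K + p) := by
  induction m with
  | nil => rfl
  | cons t ts ih => simp [ih]

/-- A family of disjoint fitting pairs that leaves one slot and three positives over yields a
distribution of the shifted positives into the shifted slots and two single places. -/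
theorem pairs_to_gfits (K B : ℕ) (slots pos : List ℕ) (hB : ∀ q ∈ pos, q ≤ B) (hBK : B ≤ K)
    (m : List (ℕ × ℕ × ℕ))
    (hslots : (m.map (fun t => t.1)).Subperm slots)
    (hpos : (m.flatMap (fun t => [t.2.1, t.2.2])).Subperm pos)
    (hfit : ∀ t ∈ m, t.2.1 + t.2.2 ≤ t.1)
    (hcount : pos.length = 2 * m.length + 3) (hs : slots.length = m.length + 1) :
    GFits ([K + B, K + B] ++ slots.map (fun c => 2 * K + c)) (pos.map (fun p => K + p)) := by
  obtain ⟨ls, hls⟩ := subperm_exists_append hslots
  obtain ⟨lr, hlr⟩ := subperm_exists_append hpos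
  have hlen1 : ls.length = 1 := by
    have := hls.length_eq
    simp only [List.length_append, List.length_map] at this
    omega
  have hlen3 : lr.length = 3 := by
    have := hlr.length_eq
    simp only [List.length_append, length_flatMap_pair] at this
    omega
  obtain ⟨c₀, rfl⟩ : ∃ c₀, ls = [c₀] := List.length_eq_one_iff.1 hlen1
  obtain ⟨q₁, q₂, q₃, rfl⟩ : ∃ q₁ q₂ q₃, lr = [q₁, q₂, q₃] := List.length_eq_three.1 hlen3
  have hq : ∀ q ∈ [q₁, q₂, q₃], q ≤ B := fun q hq =>
    hB q (hlr.symm.subset (List.mem_append_right _ hq))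
  have h1 := hq q₁ (by simp)
  have h2 := hq q₂ (by simp)
  have h3 := hq q₃ (by simp)
  apply Fits.gfits
  refine ⟨m.map (fun t => [K + t.2.1, K + t.2.2]) ++ [[K + q₁], [K + q₂], [K + q₃]],
    m.map (fun t => 2 * K + t.1) ++ [K + B, K + B, 2 * K + c₀], ?_, ?_, ?_⟩
  · have e1 : slots.map (fun c => 2 * K + c) ~ m.map (fun t => 2 * K + t.1) ++ [2 * K + c₀] := by
      have := hls.map (fun c => 2 * K + c)
      simpa [List.map_append, List.map_map, Function.comp_def] using this
    refine List.Perm.trans ?_ (List.Perm.append_left _ e1.symm)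
    have e2 : m.map (fun t => 2 * K + t.1) ++ [K + B, K + B, 2 * K + c₀] =
        (m.map (fun t => 2 * K + t.1) ++ [K + B, K + B]) ++ [2 * K + c₀] := by simp
    rw [e2, ← List.append_assoc]
    exact List.Perm.append_right _ List.perm_append_comm
  · apply List.rel_append
    · rw [List.forall₂_map_left_iff, List.forall₂_map_right_iff, List.forall₂_same]
      intro t ht
      have := hfit t ht
      simp only [List.sum_cons, List.sum_nil]
      omega
    · refine List.Forall₂.cons ?_ (List.Forall₂.cons ?_ (List.Forall₂.cons ?_ List.Forall₂.nil))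
      · simp only [List.sum_cons, List.sum_nil]; omega
      · simp only [List.sum_cons, List.sum_nil]; omega
      · simp only [List.sum_cons, List.sum_nil]; omega
  · have e1 : pos.map (fun p => K + p) ~
        (m.flatMap (fun t => [t.2.1, t.2.2]) ++ [q₁, q₂, q₃]).map (fun p => K + p) := hlr.map _
    refine List.Perm.trans (List.Perm.of_eq ?_) e1.symm
    rw [List.flatten_append, flatten_pairs]
    simp

/-- slot thresholds of the pair-slot system -/
def slots15 : List ℕ := [129, 134, 136, 145, 160, 162, 166, 187, 272, 276, 283, 418, 807, 810, 817]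

/-- positives of the pair-slot system; the two values 817 are padding (they fit no slot with a
partner) -/
def pos31 : List ℕ := [1, 36, 41, 60, 68, 70, 70, 78, 80, 81, 82, 83, 84, 85, 86, 133, 136, 138,
  139, 141, 143, 144, 400, 403, 405, 406, 408, 410, 411, 817, 817]

/-- There is no family `m` of 14 triples `(c, p, p')` with `p + p' ≤ c`, whose slots `c` form a
sub-multiset of `slots15` and whose positives `p, p'` form a sub-multiset of `pos31`. -/
theorem no_fourteen_pairs (m : List (ℕ × ℕ × ℕ)) (hlen : m.length = 14)
    (hslots : (m.map (fun t => t.1)).Subperm slots15)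
    (hpos : (m.flatMap (fun t => [t.2.1, t.2.2])).Subperm pos31)
    (hfit : ∀ t ∈ m, t.2.1 + t.2.2 ≤ t.1) : False := by
  have h := pairs_to_gfits 1000 817 slots15 pos31 (by decide) (by norm_num) m hslots hpos hfit
    (by rw [hlen]; rfl) (by rw [hlen]; rfl)
  have e1 : [1000 + 817, 1000 + 817] ++ slots15.map (fun c => 2 * 1000 + c) = P302Data.capsK := by
    decide
  have e2 : pos31.map (fun p => 1000 + p) = P302Data.itemsK := by decide
  rw [e1, e2] at h
  exact P302Data.not_gfits h

end Vale.Agent.Helper12
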