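import Vale.Agent.Helper12.P302LPGen

/-!
# P302: the LP upper bound for the 50-item instance

An explicit fractional solution of the configuration LP (42 configurations, weights in
multiples of `1/300`) of total weight `5039/300`.
-/

namespace Vale.Agent.Helper12.P302B

open Finset Vale.Agent.Helper7.P302

/-- The scaled integer size of item `i`. -/
def wB (i : Fin 50) : ℕ := itemsL.getD i.1 0

/-- The fractional solution: lists of item indices with weights (in multiples of `1/300`). -/
def sol : List (List (Fin 50) × ℕ) := [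
  ([13, 37, 42], 150),
  ([42, 47, 47], 24),
  ([12, 37, 40], 150),
  ([3, 21, 21], 150),
  ([4, 23, 23], 150),
  ([11, 15, 42], 126),
  ([6, 26, 26], 150),
  ([6, 25, 27], 150),
  ([10, 33, 35], 150),
  ([9, 32, 32], 150),
  ([10, 34, 34], 150),
  ([11, 36, 36], 24),
  ([12, 38, 38], 150),
  ([8, 30, 33], 150),
  ([14, 41, 41], 150),
  ([0, 16, 29], 54),
  ([0, 44], 162),
  ([1, 17, 28], 66),
  ([2, 17, 28], 150),
  ([2, 19, 19], 150),
  ([1, 18, 20], 216),
  ([5, 22, 27], 150),
  ([5, 24, 24], 150),
  ([3, 15, 36], 24),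
  ([7, 29, 29], 72),
  ([8, 31, 31], 150),
  ([9, 30, 35], 150),
  ([3, 20, 20], 42),
  ([7, 16, 36], 228),
  ([1, 16, 29], 18),
  ([4, 22, 25], 150),
  ([44, 47, 47], 126),
  ([13, 39, 39], 150),
  ([0, 17, 29], 84),
  ([11, 15, 43], 150),
  ([3, 18, 28], 84),
  ([44, 44, 44, 44, 46], 3),
  ([45, 45, 45, 45, 46], 75),
  ([46, 46], 111),
  ([14, 40, 43], 150),
  ([48, 48, 48], 100),
  ([49, 49, 49], 100)]

theorem sol_fit : ∀ x ∈ sol, (x.1.map wB).sum ≤ 300000 := by decide

theorem sol_cov : ∀ i : Fin 50, 300 ≤ (sol.map (fun x => x.1.count i * x.2)).sum := by decide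

theorem sol_total : (sol.map (fun x => x.2)).sum = 5039 := by decide

theorem map_inst_sum (L : List (Fin 50)) :
    (L.map inst).sum = ((L.map wB).sum : ℚ) / 300000 := by
  induction L with
  | nil => simp
  | cons x L ih =>
    simp only [List.map_cons, List.sum_cons, ih, Nat.cast_add]
    unfold inst wB
    ring

/-- The value of the configuration LP of the instance is at most `5039/300`. -/
theorem lp_le : LP inst ≤ 5039 / 300 := by
  have h := lp_le_of_cert inst sol 300 (by norm_num) (fun x hx => by
    rw [map_inst_sum, div_le_one (by norm_num)]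
    exact_mod_cast sol_fit x hx) sol_cov
  rw [sol_total] at h
  exact_mod_cast h

end Vale.Agent.Helper12.P302B
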