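import Vale.Agent.Helper7.P302.Defs

/-!
# P302: a generic upper bound for the configuration LP from an explicit fractional solution

The fractional solution is given at the level of items: a list of pairs `(L, Z)` where `L` is a
list of item indices (an item may be repeated) of total size at most `1` and `Z` is a natural
weight; the actual weight is `Z / D`.  If every item is covered with total weight at least `1`,
then `LP a ≤ (∑ Z) / D`.
-/

namespace Vale.Agent.Helper12.P302B

open Finset Vale.Agent.Helper7.P302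

/-- The configuration (vector of multiplicities of sizes) of a list of item indices. -/
def cfgOf {n : ℕ} (a : Fin n → ℚ) (L : List (Fin n)) : ℚ → ℕ :=
  fun σ => L.countP (fun i => decide (a i = σ))

theorem cfgOf_cons {n : ℕ} (a : Fin n → ℚ) (x : Fin n) (L : List (Fin n)) (σ : ℚ) :
    cfgOf a (x :: L) σ = cfgOf a L σ + if a x = σ then 1 else 0 := by
  unfold cfgOf
  rw [List.countP_cons]
  simp

theorem cfgOf_outside {n : ℕ} (a : Fin n → ℚ) (L : List (Fin n)) (σ : ℚ)
    (hσ : σ ∉ sizeSet a) : cfgOf a L σ = 0 := by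
  unfold cfgOf
  rw [List.countP_eq_zero]
  intro i _ h
  have h' : a i = σ := by simpa using h
  exact hσ (by rw [sizeSet, mem_image]; exact ⟨i, mem_univ i, h'⟩)

theorem cfgOf_size {n : ℕ} (a : Fin n → ℚ) (L : List (Fin n)) :
    ∑ σ ∈ sizeSet a, σ * (cfgOf a L σ : ℚ) = (L.map a).sum := by
  induction L with
  | nil => simp [cfgOf]
  | cons x L ih =>
    have hx : a x ∈ sizeSet a := by rw [sizeSet, mem_image]; exact ⟨x, mem_univ x, rfl⟩
    simp only [cfgOf_cons, Nat.cast_add, mul_add, sum_add_distrib, ih, List.map_cons,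
      List.sum_cons]
    have : ∑ σ ∈ sizeSet a, σ * (((if a x = σ then 1 else 0 : ℕ)) : ℚ) = a x := by
      have h2 : ∀ σ ∈ sizeSet a, σ * (((if a x = σ then 1 else 0 : ℕ)) : ℚ) =
          if a x = σ then a x else 0 := by
        intro σ _
        by_cases h : a x = σ
        · simp [h]
        · simp [h]
      rw [sum_congr rfl h2, sum_ite_eq (sizeSet a) (a x) (fun _ => a x), if_pos hx]
    rw [this]; ring

theorem cfgOf_count {n : ℕ} (a : Fin n → ℚ) (L : List (Fin n)) (σ : ℚ) :
    cfgOf a L σ = ∑ i ∈ univ.filter (fun i => a i = σ), L.count i := by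
  induction L with
  | nil => simp [cfgOf]
  | cons x L ih =>
    rw [cfgOf_cons, ih]
    simp only [List.count_cons, sum_add_distrib]
    congr 1
    by_cases h : a x = σ
    · rw [if_pos h]
      have hx : x ∈ univ.filter (fun i => a i = σ) := by rw [mem_filter]; exact ⟨mem_univ x, h⟩
      have h2 : ∀ i ∈ univ.filter (fun i => a i = σ),
          (if (x == i) = true then 1 else 0 : ℕ) = if x = i then 1 else 0 := by
        intro i _; simp
      rw [sum_congr rfl h2, sum_ite_eq, if_pos hx]
    · rw [if_neg h]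
      symm
      apply sum_eq_zero
      intro i hi
      rw [mem_filter] at hi
      have : x ≠ i := by
        intro hxi; rw [hxi] at h; exact h hi.2
      simp [this]

/-- The generic LP upper bound from an item-level fractional solution. -/
theorem lp_le_of_cert {n : ℕ} (a : Fin n → ℚ) (cfgs : List (List (Fin n) × ℕ)) (D : ℕ)
    (hD : 0 < D) (hfit : ∀ x ∈ cfgs, (x.1.map a).sum ≤ 1)
    (hcov : ∀ i : Fin n, D ≤ (cfgs.map (fun x => x.1.count i * x.2)).sum) :
    LP a ≤ ((cfgs.map (fun x => x.2)).sum : ℕ) / (D : ℝ) := by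
  classical
  have hDR : (0 : ℝ) < (D : ℝ) := by exact_mod_cast hD
  apply csInf_le
  · refine ⟨0, ?_⟩
    rintro v ⟨k, c, z, hsol, rfl⟩
    exact sum_nonneg (fun j _ => (hsol.1 j).2)
  · refine ⟨cfgs.length, fun j => cfgOf a (cfgs[j.1]).1, fun j => ((cfgs[j.1]).2 : ℝ) / D,
      ⟨?_, ?_⟩, ?_⟩
    · intro j
      refine ⟨⟨fun σ hσ => cfgOf_outside a _ σ hσ, ?_⟩, by positivity⟩
      rw [cfgOf_size]
      exact hfit _ (List.getElem_mem j.2)
    · intro σ _
      have e1 : ∀ j : Fin cfgs.length, ((cfgOf a (cfgs[j.1]).1 σ : ℕ) : ℝ) *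
          (((cfgs[j.1]).2 : ℝ) / D) =
          ∑ i ∈ univ.filter (fun i => a i = σ),
            ((((cfgs[j.1]).1.count i * (cfgs[j.1]).2 : ℕ)) : ℝ) / D := by
        intro j
        rw [cfgOf_count, Nat.cast_sum, sum_mul]
        apply sum_congr rfl
        intro i _
        push_cast
        ring
      rw [sum_congr rfl (fun j _ => e1 j), sum_comm]
      have e2 : ∀ i : Fin n, (1 : ℝ) ≤ ∑ j : Fin cfgs.length,
          ((((cfgs[j.1]).1.count i * (cfgs[j.1]).2 : ℕ)) : ℝ) / D := by
        intro i
        rw [← sum_div, ← Nat.cast_sum,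
          Fin.sum_univ_fun_getElem cfgs (fun x => x.1.count i * x.2), le_div_iff₀ hDR, one_mul]
        exact_mod_cast hcov i
      calc (mult a σ : ℝ) = ∑ i ∈ univ.filter (fun i => a i = σ), (1 : ℝ) := by
            rw [sum_const, nsmul_eq_mul, mul_one]; rfl
        _ ≤ _ := sum_le_sum (fun i _ => e2 i)
    · rw [← sum_div, ← Nat.cast_sum, Fin.sum_univ_fun_getElem cfgs (fun x => x.2)]

end Vale.Agent.Helper12.P302B
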