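import Vale.Agent.Helper12.P302HD

/-!
# P302: the packing lower bound for the 50-item instance (every packing uses at least 18 bins)

Weight argument: bigs weigh 7, smalls 1, the outer items 136000 and 126000 weigh 4 and the two
outer items 96000 weigh 3.  The total weight is 150.  Every bin has weight at most 8, except the
bins consisting of one big and two smalls (weight 9).  So 17 bins would need at least 14 bins of
the latter kind, i.e. 14 disjoint pairs of positives in 14 distinct slots, which is impossible.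
-/

namespace Vale.Agent.Helper12.P302C

open Finset Vale.Agent.Helper7.P302

/-- The scaled integer size of item `i`. -/
def w (i : Fin 50) : ℕ := itemsL.getD i.1 0

def nb (i : Fin 50) : ℕ := if i.1 < 15 then 1 else 0
def ns (i : Fin 50) : ℕ := if 15 ≤ i.1 ∧ i.1 < 46 then 1 else 0
def n1 (i : Fin 50) : ℕ := if i.1 = 46 then 1 else 0
def n2 (i : Fin 50) : ℕ := if i.1 = 47 then 1 else 0
def n3 (i : Fin 50) : ℕ := if 48 ≤ i.1 then 1 else 0

/-- The weight of item `i`. -/
def wt (i : Fin 50) : ℕ := 7 * nb i + ns i + 4 * n1 i + 4 * n2 i + 3 * n3 i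

theorem w_ge : ∀ i : Fin 50,
    219183 * nb i + 40000 * ns i + 136000 * n1 i + 126000 * n2 i + 96000 * n3 i ≤ w i := by
  decide

theorem sum_n1 : ∑ i : Fin 50, n1 i = 1 := by decide

theorem sum_n2 : ∑ i : Fin 50, n2 i = 1 := by decide

theorem sum_n3 : ∑ i : Fin 50, n3 i = 2 := by decide

theorem sum_wt : ∑ i : Fin 50, wt i = 150 := by decide

theorem w_big : ∀ i : Fin 50, i.1 < 15 → w i + slotsL.getD i.1 0 = 220000 := by decide

theorem w_small : ∀ i : Fin 50, 15 ≤ i.1 → i.1 < 46 →
    w i = 40000 + posL.getD (i.1 - 15) 0 := by decide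

theorem arith (NB NS b c d : ℕ) (hb : b ≤ 1) (hc : c ≤ 1) (hd : d ≤ 2)
    (hw : 219183 * NB + 40000 * NS + 136000 * b + 126000 * c + 96000 * d ≤ 300000) :
    7 * NB + NS + 4 * b + 4 * c + 3 * d ≤ 8 ∨ (NB = 1 ∧ NS = 2 ∧ b = 0 ∧ c = 0 ∧ d = 0) := by
  interval_cases b <;> interval_cases c <;> interval_cases d <;> omega

/-- Every feasible bin has weight at most 8, except one big plus two smalls (weight 9). -/
theorem bin_wt (S : Finset (Fin 50)) (hS : ∑ i ∈ S, w i ≤ 300000) :
    ∑ i ∈ S, wt i ≤ 8 ∨ (∑ i ∈ S, wt i = 9 ∧ ∑ i ∈ S, nb i = 1 ∧ ∑ i ∈ S, ns i = 2) := by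
  have h1 : ∑ i ∈ S, n1 i ≤ 1 :=
    (sum_le_sum_of_subset (subset_univ S)).trans sum_n1.le
  have h2 : ∑ i ∈ S, n2 i ≤ 1 :=
    (sum_le_sum_of_subset (subset_univ S)).trans sum_n2.le
  have h3 : ∑ i ∈ S, n3 i ≤ 2 :=
    (sum_le_sum_of_subset (subset_univ S)).trans sum_n3.le
  have hw : ∑ i ∈ S, (219183 * nb i + 40000 * ns i + 136000 * n1 i + 126000 * n2 i +
      96000 * n3 i) ≤ ∑ i ∈ S, w i := sum_le_sum (fun i _ => w_ge i)
  simp only [sum_add_distrib, ← mul_sum] at hw
  have hwt : ∑ i ∈ S, wt i = 7 * ∑ i ∈ S, nb i + ∑ i ∈ S, ns i + 4 * ∑ i ∈ S, n1 i +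
      4 * ∑ i ∈ S, n2 i + 3 * ∑ i ∈ S, n3 i := by
    simp only [wt, sum_add_distrib, ← mul_sum]
  rcases arith _ _ _ _ _ h1 h2 h3 (hw.trans hS) with h | ⟨ha, hb, hc, hd, he⟩
  · left; omega
  · right; omega

/-- A bin of weight 9 contains a big and two distinct smalls, which therefore fit together. -/
theorem pair_of_bin (S : Finset (Fin 50)) (hS : ∑ i ∈ S, w i ≤ 300000)
    (h9 : ¬ ∑ i ∈ S, wt i ≤ 8) :
    ∃ i j k : Fin 50, i ∈ S ∧ j ∈ S ∧ k ∈ S ∧ i.1 < 15 ∧ (15 ≤ j.1 ∧ j.1 < 46) ∧
      (15 ≤ k.1 ∧ k.1 < 46) ∧ j ≠ k ∧ w i + w j + w k ≤ 300000 := by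
  rcases bin_wt S hS with h | ⟨_, hb, hs⟩
  · exact absurd h h9
  · have cb : (S.filter (fun i : Fin 50 => i.1 < 15)).card = 1 := by
      rw [card_filter]; exact hb
    have cs : (S.filter (fun i : Fin 50 => 15 ≤ i.1 ∧ i.1 < 46)).card = 2 := by
      rw [card_filter]; exact hs
    obtain ⟨i, hi⟩ := card_eq_one.1 cb
    obtain ⟨j, k, hjk, hjk2⟩ := card_eq_two.1 cs
    have hi' : i ∈ S.filter (fun i : Fin 50 => i.1 < 15) := by rw [hi]; exact mem_singleton_self i
    have hj' : j ∈ S.filter (fun i : Fin 50 => 15 ≤ i.1 ∧ i.1 < 46) := by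
      rw [hjk2]; exact mem_insert_self j _
    have hk' : k ∈ S.filter (fun i : Fin 50 => 15 ≤ i.1 ∧ i.1 < 46) := by
      rw [hjk2]; exact mem_insert_of_mem (mem_singleton_self k)
    rw [mem_filter] at hi' hj' hk'
    refine ⟨i, j, k, hi'.1, hj'.1, hk'.1, hi'.2, hj'.2, hk'.2, hjk, ?_⟩
    have hij : i ≠ j := by
      intro h; rw [h] at hi'; omega
    have hik : i ≠ k := by
      intro h; rw [h] at hi'; omega
    have hsub : ({i, j, k} : Finset (Fin 50)) ⊆ S := by
      intro x hx
      simp only [mem_insert, mem_singleton] at hx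
      rcases hx with rfl | rfl | rfl
      · exact hi'.1
      · exact hj'.1
      · exact hk'.1
    have hsum : ∑ x ∈ ({i, j, k} : Finset (Fin 50)), w x = w i + w j + w k := by
      rw [sum_insert (by simp [hij, hik]), sum_pair hjk]; ring
    have := sum_le_sum_of_subset (f := w) hsub
    omega

/-- Every packing of the instance uses at least 18 bins. -/
theorem opt_ge (m : ℕ) (f : Fin 50 → Fin m) (hf : IsPacking inst m f) : 18 ≤ m := by
  classical
  by_contra hm
  have hbin : ∀ b : Fin m, ∑ i ∈ univ.filter (fun i => f i = b), w i ≤ 300000 := by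
    intro b
    have h := hf b
    have e : ∑ i ∈ univ.filter (fun i => f i = b), inst i =
        ((∑ i ∈ univ.filter (fun i => f i = b), w i : ℕ) : ℚ) / 300000 := by
      rw [Nat.cast_sum, Finset.sum_div]; rfl
    rw [e, div_le_one (by norm_num)] at h
    exact_mod_cast h
  have htot : ∑ b : Fin m, ∑ i ∈ univ.filter (fun i => f i = b), wt i = 150 := by
    rw [Finset.sum_fiberwise]; exact sum_wt
  set PB : Finset (Fin m) :=
    univ.filter (fun b : Fin m => ¬ ∑ i ∈ univ.filter (fun i => f i = b), wt i ≤ 8) with hPB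
  have hle : ∀ b : Fin m, ∑ i ∈ univ.filter (fun i => f i = b), wt i ≤
      8 + (if b ∈ PB then 1 else 0) := by
    intro b
    by_cases hb : b ∈ PB
    · rw [if_pos hb]
      have hS := hbin b
      rcases bin_wt _ hS with h | ⟨h9, _, _⟩
      · omega
      · omega
    · rw [if_neg hb]
      have : ¬ ¬ ∑ i ∈ univ.filter (fun i => f i = b), wt i ≤ 8 := by
        intro h; exact hb (by rw [hPB, mem_filter]; exact ⟨mem_univ b, h⟩)
      omega
  have hcount : 150 ≤ 8 * m + PB.card := by
    calc 150 = ∑ b : Fin m, ∑ i ∈ univ.filter (fun i => f i = b), wt i := htot.symm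
      _ ≤ ∑ b : Fin m, (8 + (if b ∈ PB then 1 else 0)) := sum_le_sum (fun b _ => hle b)
      _ = 8 * m + PB.card := by
        rw [sum_add_distrib, sum_const, card_univ, Fintype.card_fin, smul_eq_mul,
          Finset.sum_ite_mem, univ_inter, sum_const, smul_eq_mul, mul_one, mul_comm]
  have hcard : 14 ≤ PB.card := by omega
  let e : Fin 14 ↪o Fin m := PB.orderEmbOfCardLe hcard
  have he : ∀ k, e k ∈ PB := fun k => PB.orderEmbOfCardLe_mem hcard k
  have hex : ∀ k : Fin 14, ∃ i j l : Fin 50, i ∈ univ.filter (fun i => f i = e k) ∧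
      j ∈ univ.filter (fun i => f i = e k) ∧ l ∈ univ.filter (fun i => f i = e k) ∧
      i.1 < 15 ∧ (15 ≤ j.1 ∧ j.1 < 46) ∧ (15 ≤ l.1 ∧ l.1 < 46) ∧ j ≠ l ∧
      w i + w j + w l ≤ 300000 := by
    intro k
    have hk := he k
    rw [hPB, mem_filter] at hk
    exact pair_of_bin _ (hbin (e k)) hk.2
  choose s' p' q' hs' hp' hq' hsb hpb hqb hne hfit using hex
  simp only [mem_filter, mem_univ, true_and] at hs' hp' hq'
  refine hD_index (fun k => ⟨(s' k).1, hsb k⟩)
    (fun k => ⟨(p' k).1 - 15, by have := hpb k; omega⟩)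
    (fun k => ⟨(q' k).1 - 15, by have := hqb k; omega⟩) ?_ ?_ ?_
  · intro k k' h
    have h1 : (s' k).1 = (s' k').1 := by simpa using congrArg Fin.val h
    have h2 : s' k = s' k' := Fin.ext h1
    have h3 : e k = e k' := by rw [← hs' k, ← hs' k', h2]
    exact e.injective h3
  · rintro (k | k) (k' | k') h
    · simp only [Sum.elim_inl, Fin.mk.injEq] at h
      have h2 : p' k = p' k' := Fin.ext (by have := hpb k; have := hpb k'; omega)
      have h3 : e k = e k' := by rw [← hp' k, ← hp' k', h2]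
      rw [e.injective h3]
    · simp only [Sum.elim_inl, Sum.elim_inr, Fin.mk.injEq] at h
      have h2 : p' k = q' k' := Fin.ext (by have := hpb k; have := hqb k'; omega)
      have h3 : e k = e k' := by rw [← hp' k, ← hq' k', h2]
      have h4 := e.injective h3
      subst h4
      exact absurd h2 (hne k)
    · simp only [Sum.elim_inl, Sum.elim_inr, Fin.mk.injEq] at h
      have h2 : q' k = p' k' := Fin.ext (by have := hqb k; have := hpb k'; omega)
      have h3 : e k = e k' := by rw [← hq' k, ← hp' k', h2]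
      have h4 := e.injective h3
      subst h4
      exact absurd h2.symm (hne k)
    · simp only [Sum.elim_inr, Fin.mk.injEq] at h
      have h2 : q' k = q' k' := Fin.ext (by have := hqb k; have := hqb k'; omega)
      have h3 : e k = e k' := by rw [← hq' k, ← hq' k', h2]
      rw [e.injective h3]
  · intro k
    have h1 := w_big (s' k) (hsb k)
    have h2 := w_small (p' k) (hpb k).1 (hpb k).2
    have h3 := w_small (q' k) (hqb k).1 (hqb k).2
    have h4 := hfit k
    show posL.getD ((p' k).1 - 15) 0 + posL.getD ((q' k).1 - 15) 0 ≤ slotsL.getD (s' k).1 0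
    omega

end Vale.Agent.Helper12.P302C
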