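import Vale.Agent.Helper7.P302.Defs3

/-!
# P302: the packing lower bound for the third instance (51 items, capacity 1950000)

Weight argument: bigs weigh 7, smalls 1, the outer item 845000 weighs 4 and the outer items
695000, 645000, 620000 weigh 3 each.  The total weight is 150.  Every bin has weight at most 8,
except the bins consisting of one big and two smalls (weight 9).  So 17 bins would need at least
14 bins of the latter kind, i.e. 14 disjoint pairs of positives in 14 distinct slots.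
-/

namespace Vale.Agent.Helper12.P302C3

open Finset Vale.Agent.Helper7.P302

/-- The scaled integer size of item `i`. -/
def w (i : Fin 51) : ℕ := itemsL3.getD i.1 0

def nb (i : Fin 51) : ℕ := if i.1 < 15 then 1 else 0
def ns (i : Fin 51) : ℕ := if 15 ≤ i.1 ∧ i.1 < 47 then 1 else 0
def n1 (i : Fin 51) : ℕ := if i.1 = 47 then 1 else 0
def n2 (i : Fin 51) : ℕ := if i.1 = 48 then 1 else 0
def n3 (i : Fin 51) : ℕ := if i.1 = 49 then 1 else 0
def n4 (i : Fin 51) : ℕ := if i.1 = 50 then 1 else 0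

/-- The weight of item `i`. -/
def wt (i : Fin 51) : ℕ := 7 * nb i + ns i + 4 * n1 i + 3 * n2 i + 3 * n3 i + 3 * n4 i

theorem w_ge : ∀ i : Fin 51,
    1449183 * nb i + 250000 * ns i + 845000 * n1 i + 695000 * n2 i + 645000 * n3 i +
      620000 * n4 i ≤ w i := by
  decide

theorem sum_n1 : ∑ i : Fin 51, n1 i = 1 := by decide

theorem sum_n2 : ∑ i : Fin 51, n2 i = 1 := by decide

theorem sum_n3 : ∑ i : Fin 51, n3 i = 1 := by decide

theorem sum_n4 : ∑ i : Fin 51, n4 i = 1 := by decide

theorem sum_wt : ∑ i : Fin 51, wt i = 150 := by decide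

theorem w_big : ∀ i : Fin 51, i.1 < 15 → w i + slotsL.getD i.1 0 = 1450000 := by decide

theorem w_small : ∀ i : Fin 51, 15 ≤ i.1 → i.1 < 47 →
    w i = 250000 + posL2.getD (i.1 - 15) 0 := by decide

theorem arith (NB NS a b c d : ℕ) (ha : a ≤ 1) (hb : b ≤ 1) (hc : c ≤ 1) (hd : d ≤ 1)
    (hw : 1449183 * NB + 250000 * NS + 845000 * a + 695000 * b + 645000 * c + 620000 * d ≤
      1950000) :
    7 * NB + NS + 4 * a + 3 * b + 3 * c + 3 * d ≤ 8 ∨
      (NB = 1 ∧ NS = 2 ∧ a = 0 ∧ b = 0 ∧ c = 0 ∧ d = 0) := by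
  interval_cases a <;> interval_cases b <;> interval_cases c <;> interval_cases d <;> omega

/-- Every feasible bin has weight at most 8, except one big plus two smalls (weight 9). -/
theorem bin_wt (S : Finset (Fin 51)) (hS : ∑ i ∈ S, w i ≤ 1950000) :
    ∑ i ∈ S, wt i ≤ 8 ∨ (∑ i ∈ S, wt i = 9 ∧ ∑ i ∈ S, nb i = 1 ∧ ∑ i ∈ S, ns i = 2) := by
  have h1 : ∑ i ∈ S, n1 i ≤ 1 :=
    (sum_le_sum_of_subset (subset_univ S)).trans sum_n1.le
  have h2 : ∑ i ∈ S, n2 i ≤ 1 :=
    (sum_le_sum_of_subset (subset_univ S)).trans sum_n2.le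
  have h3 : ∑ i ∈ S, n3 i ≤ 1 :=
    (sum_le_sum_of_subset (subset_univ S)).trans sum_n3.le
  have h4 : ∑ i ∈ S, n4 i ≤ 1 :=
    (sum_le_sum_of_subset (subset_univ S)).trans sum_n4.le
  have hw : ∑ i ∈ S, (1449183 * nb i + 250000 * ns i + 845000 * n1 i + 695000 * n2 i +
      645000 * n3 i + 620000 * n4 i) ≤ ∑ i ∈ S, w i := sum_le_sum (fun i _ => w_ge i)
  simp only [sum_add_distrib, ← mul_sum] at hw
  have hwt : ∑ i ∈ S, wt i = 7 * ∑ i ∈ S, nb i + ∑ i ∈ S, ns i + 4 * ∑ i ∈ S, n1 i +
      3 * ∑ i ∈ S, n2 i + 3 * ∑ i ∈ S, n3 i + 3 * ∑ i ∈ S, n4 i := by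
    simp only [wt, sum_add_distrib, ← mul_sum]
  rcases arith _ _ _ _ _ _ h1 h2 h3 h4 (hw.trans hS) with h | ⟨ha, hb, hc, hd, he, hf⟩
  · left; omega
  · right; omega

/-- A bin of weight 9 contains a big and two distinct smalls, which therefore fit together. -/
theorem pair_of_bin (S : Finset (Fin 51)) (hS : ∑ i ∈ S, w i ≤ 1950000)
    (h9 : ¬ ∑ i ∈ S, wt i ≤ 8) :
    ∃ i j k : Fin 51, i ∈ S ∧ j ∈ S ∧ k ∈ S ∧ i.1 < 15 ∧ (15 ≤ j.1 ∧ j.1 < 47) ∧
      (15 ≤ k.1 ∧ k.1 < 47) ∧ j ≠ k ∧ w i + w j + w k ≤ 1950000 := by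
  rcases bin_wt S hS with h | ⟨_, hb, hs⟩
  · exact absurd h h9
  · have cb : (S.filter (fun i : Fin 51 => i.1 < 15)).card = 1 := by
      rw [card_filter]; exact hb
    have cs : (S.filter (fun i : Fin 51 => 15 ≤ i.1 ∧ i.1 < 47)).card = 2 := by
      rw [card_filter]; exact hs
    obtain ⟨i, hi⟩ := card_eq_one.1 cb
    obtain ⟨j, k, hjk, hjk2⟩ := card_eq_two.1 cs
    have hi' : i ∈ S.filter (fun i : Fin 51 => i.1 < 15) := by rw [hi]; exact mem_singleton_self i
    have hj' : j ∈ S.filter (fun i : Fin 51 => 15 ≤ i.1 ∧ i.1 < 47) := by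
      rw [hjk2]; exact mem_insert_self j _
    have hk' : k ∈ S.filter (fun i : Fin 51 => 15 ≤ i.1 ∧ i.1 < 47) := by
      rw [hjk2]; exact mem_insert_of_mem (mem_singleton_self k)
    rw [mem_filter] at hi' hj' hk'
    refine ⟨i, j, k, hi'.1, hj'.1, hk'.1, hi'.2, hj'.2, hk'.2, hjk, ?_⟩
    have hij : i ≠ j := by
      intro h; rw [h] at hi'; omega
    have hik : i ≠ k := by
      intro h; rw [h] at hi'; omega
    have hsub : ({i, j, k} : Finset (Fin 51)) ⊆ S := by
      intro x hx
      simp only [mem_insert, mem_singleton] at hx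
      rcases hx with rfl | rfl | rfl
      · exact hi'.1
      · exact hj'.1
      · exact hk'.1
    have hsum : ∑ x ∈ ({i, j, k} : Finset (Fin 51)), w x = w i + w j + w k := by
      rw [sum_insert (by simp [hij, hik]), sum_pair hjk]; ring
    have := sum_le_sum_of_subset (f := w) hsub
    omega

/-- Every packing of the third instance uses at least 18 bins, given the pair bound `hD`. -/
theorem opt_ge3
    (hD : ∀ (s : Fin 14 → Fin 15) (p q : Fin 14 → Fin 32), Function.Injective s →
      Function.Injective (Sum.elim p q) →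
      (∀ k, posL2.getD (p k) 0 + posL2.getD (q k) 0 ≤ slotsL.getD (s k) 0) → False) :
    ∀ (m : ℕ) (f : Fin 51 → Fin m), IsPacking inst3 m f → 18 ≤ m := by
  classical
  intro m f hf
  by_contra hm
  have hbin : ∀ b : Fin m, ∑ i ∈ univ.filter (fun i => f i = b), w i ≤ 1950000 := by
    intro b
    have h := hf b
    have e : ∑ i ∈ univ.filter (fun i => f i = b), inst3 i =
        ((∑ i ∈ univ.filter (fun i => f i = b), w i : ℕ) : ℚ) / 1950000 := by
      rw [Nat.cast_sum, Finset.sum_div]; rfl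
    rw [e, div_le_one (by norm_num)] at h
    exact_mod_cast h
  have htot : ∑ b : Fin m, ∑ i ∈ univ.filter (fun i => f i = b), wt i = 150 := by
    rw [Finset.sum_fiberwise]; exact sum_wt
  set PB : Finset (Fin m) :=
    univ.filter (fun b : Fin m => ¬ ∑ i ∈ univ.filter (fun i => f i = b), wt i ≤ 8) with hPB
  have hle : ∀ b : Fin m, ∑ i ∈ univ.filter (fun i => f i = b), wt i ≤
      8 + (if b ∈ PB then 1 else 0) := by
    intro b
    by_cases hb : b ∈ PB
    · rw [if_pos hb]
      have hS := hbin b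
      rcases bin_wt _ hS with h | ⟨h9, _, _⟩
      · omega
      · omega
    · rw [if_neg hb]
      have : ¬ ¬ ∑ i ∈ univ.filter (fun i => f i = b), wt i ≤ 8 := by
        intro h; exact hb (by rw [hPB, mem_filter]; exact ⟨mem_univ b, h⟩)
      omega
  have hcount : 150 ≤ 8 * m + PB.card := by
    calc 150 = ∑ b : Fin m, ∑ i ∈ univ.filter (fun i => f i = b), wt i := htot.symm
      _ ≤ ∑ b : Fin m, (8 + (if b ∈ PB then 1 else 0)) := sum_le_sum (fun b _ => hle b)
      _ = 8 * m + PB.card := by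
        rw [sum_add_distrib, sum_const, card_univ, Fintype.card_fin, smul_eq_mul,
          Finset.sum_ite_mem, univ_inter, sum_const, smul_eq_mul, mul_one, mul_comm]
  have hcard : 14 ≤ PB.card := by omega
  let e : Fin 14 ↪o Fin m := PB.orderEmbOfCardLe hcard
  have he : ∀ k, e k ∈ PB := fun k => PB.orderEmbOfCardLe_mem hcard k
  have hex : ∀ k : Fin 14, ∃ i j l : Fin 51, i ∈ univ.filter (fun i => f i = e k) ∧
      j ∈ univ.filter (fun i => f i = e k) ∧ l ∈ univ.filter (fun i => f i = e k) ∧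
      i.1 < 15 ∧ (15 ≤ j.1 ∧ j.1 < 47) ∧ (15 ≤ l.1 ∧ l.1 < 47) ∧ j ≠ l ∧
      w i + w j + w l ≤ 1950000 := by
    intro k
    have hk := he k
    rw [hPB, mem_filter] at hk
    exact pair_of_bin _ (hbin (e k)) hk.2
  choose s' p' q' hs' hp' hq' hsb hpb hqb hne hfit using hex
  simp only [mem_filter, mem_univ, true_and] at hs' hp' hq'
  refine hD (fun k => ⟨(s' k).1, hsb k⟩)
    (fun k => ⟨(p' k).1 - 15, by have := hpb k; omega⟩)
    (fun k => ⟨(q' k).1 - 15, by have := hqb k; omega⟩) ?_ ?_ ?_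
  · intro k k' h
    have h1 : (s' k).1 = (s' k').1 := by simpa using congrArg Fin.val h
    have h2 : s' k = s' k' := Fin.ext h1
    have h3 : e k = e k' := by rw [← hs' k, ← hs' k', h2]
    exact e.injective h3
  · rintro (k | k) (k' | k') h
    · simp only [Sum.elim_inl, Fin.mk.injEq] at h
      have h2 : p' k = p' k' := Fin.ext (by have := hpb k; have := hpb k'; omega)
      have h3 : e k = e k' := by rw [← hp' k, ← hp' k', h2]
      rw [e.injective h3]
    · simp only [Sum.elim_inl, Sum.elim_inr, Fin.mk.injEq] at h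
      have h2 : p' k = q' k' := Fin.ext (by have := hpb k; have := hqb k'; omega)
      have h3 : e k = e k' := by rw [← hp' k, ← hq' k', h2]
      have h4 := e.injective h3
      subst h4
      exact absurd h2 (hne k)
    · simp only [Sum.elim_inl, Sum.elim_inr, Fin.mk.injEq] at h
      have h2 : q' k = p' k' := Fin.ext (by have := hqb k; have := hpb k'; omega)
      have h3 : e k = e k' := by rw [← hq' k, ← hp' k', h2]
      have h4 := e.injective h3
      subst h4
      exact absurd h2.symm (hne k)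
    · simp only [Sum.elim_inr, Fin.mk.injEq] at h
      have h2 : q' k = q' k' := Fin.ext (by have := hqb k; have := hqb k'; omega)
      have h3 : e k = e k' := by rw [← hq' k, ← hq' k', h2]
      rw [e.injective h3]
  · intro k
    have h1 := w_big (s' k) (hsb k)
    have h2 := w_small (p' k) (hpb k).1 (hpb k).2
    have h3 := w_small (q' k) (hqb k).1 (hqb k).2
    have h4 := hfit k
    show posL2.getD ((p' k).1 - 15) 0 + posL2.getD ((q' k).1 - 15) 0 ≤ slotsL.getD (s' k).1 0
    omega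

end Vale.Agent.Helper12.P302C3
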