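import Vale.Agent.Helper12.PackCore

/-!
A certificate checker refuting `GFits caps items` when every group has at most two items:
branching on the partner of a chosen item, with weighted (dual) bounds at the leaves.
-/

namespace Vale.Agent.Helper12

open List

theorem mul_length_le_sum {lo : ℕ} : ∀ {g : List ℕ}, (∀ x ∈ g, lo ≤ x) → lo * g.length ≤ g.sum
  | [], _ => by simp
  | x :: xs, h => by
    have h1 : lo ≤ x := h x (by simp)
    have h2 := mul_length_le_sum (lo := lo) (g := xs) (fun y hy => h y (by simp [hy]))
    simp only [List.length_cons, List.sum_cons]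
    rw [Nat.mul_succ]
    omega

theorem group_sum_le_cap {caps : List ℕ} {gs : List (List ℕ)} (hH : HallOK caps (gs.map List.sum))
    {g : List ℕ} (hg : g ∈ gs) (hpos : 1 ≤ g.sum) : ∃ c ∈ caps, g.sum ≤ c := by
  have h1 : 0 < cge g.sum (gs.map List.sum) :=
    cge_pos_of_mem (List.mem_map_of_mem hg) le_rfl
  have h2 := hH g.sum hpos
  exact cge_pos (by omega)

theorem group_len {lo hi : ℕ} {caps items : List ℕ} {gs : List (List ℕ)}
    (hlo : 1 ≤ lo) (hhi : hi < 3 * lo) (hitems : ∀ y ∈ items, lo ≤ y) (hcaps : ∀ c ∈ caps, c ≤ hi)
    (hP : gs.flatten ~ items) (hH : HallOK caps (gs.map List.sum)) {g : List ℕ} (hg : g ∈ gs) :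
    g.length ≤ 2 := by
  by_contra hcon
  have hlen : 3 ≤ g.length := by omega
  have hmem : ∀ x ∈ g, lo ≤ x := fun x hx =>
    hitems x (hP.subset (List.mem_flatten.2 ⟨g, hg, hx⟩))
  have h1 := mul_length_le_sum hmem
  have h3 : lo * 3 ≤ lo * g.length := Nat.mul_le_mul_left lo hlen
  have hpos : 1 ≤ g.sum := by nlinarith
  obtain ⟨c, hc, hgc⟩ := group_sum_le_cap hH hg hpos
  have := hcaps c hc
  omega

/-- Branching on the group of the first item: it is alone or has exactly one partner. -/
theorem GFits.branch {lo hi : ℕ} {caps rest : List ℕ} {x : ℕ} (hlo : 1 ≤ lo) (hhi : hi < 3 * lo)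
    (hitems : ∀ y ∈ x :: rest, lo ≤ y) (hcaps : ∀ c ∈ caps, c ≤ hi)
    (hsorted : caps.Pairwise (· ≤ ·)) (h : GFits caps (x :: rest)) :
    (∃ caps', takeCap x caps = some caps' ∧ GFits caps' rest ∧ caps'.Pairwise (· ≤ ·) ∧
        (∀ c ∈ caps', c ∈ caps)) ∨
    (∃ y ∈ rest, ∃ caps', takeCap (x + y) caps = some caps' ∧ GFits caps' (rest.erase y) ∧
        caps'.Pairwise (· ≤ ·) ∧ (∀ c ∈ caps', c ∈ caps)) := by
  obtain ⟨gs, hP, hH⟩ := h
  have hx : x ∈ gs.flatten := hP.symm.subset (by simp)
  obtain ⟨g, hg, hxg⟩ := List.mem_flatten.1 hx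
  have hlen := group_len hlo hhi hitems hcaps hP hH hg
  have hperm : gs ~ g :: gs.erase g := List.perm_cons_erase hg
  have hH' : HallOK caps (g.sum :: (gs.erase g).map List.sum) := by
    intro th hth
    have := hH th hth
    rwa [cge_perm (hperm.map List.sum)] at this
  have hflat : g ++ (gs.erase g).flatten ~ x :: rest := by
    have := hperm.flatten
    simp only [List.flatten_cons] at this
    exact this.symm.trans hP
  have hgx : g ~ x :: g.erase x := List.perm_cons_erase hxg
  have hsum : x + (g.erase x).sum = g.sum := List.sum_erase hxg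
  have hlen' : (g.erase x).length ≤ 1 := by
    rw [List.length_erase_of_mem hxg]; omega
  have hxlo : lo ≤ x := hitems x (by simp)
  match hE : g.erase x, hlen' with
  | [], _ =>
    rw [hE] at hgx hsum
    simp only [List.sum_nil, add_zero] at hsum
    rw [← hsum] at hH'
    obtain ⟨caps', hT, hH2, hs2, hsub⟩ := hall_takeCap (by omega) hsorted hH'
    refine Or.inl ⟨caps', hT, ⟨gs.erase g, ?_, hH2⟩, hs2, hsub⟩
    have h1 : x :: (gs.erase g).flatten ~ x :: rest :=
      (List.Perm.append_right _ hgx).symm.trans hflat
    exact h1.cons_inv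
  | [y], _ =>
    rw [hE] at hgx hsum
    simp only [List.sum_cons, List.sum_nil, add_zero] at hsum
    rw [← hsum] at hH'
    obtain ⟨caps', hT, hH2, hs2, hsub⟩ := hall_takeCap (by omega) hsorted hH'
    have h1 : x :: y :: (gs.erase g).flatten ~ x :: rest :=
      (List.Perm.append_right _ hgx).symm.trans hflat
    have h2 : y :: (gs.erase g).flatten ~ rest := h1.cons_inv
    have hy : y ∈ rest := h2.subset (by simp)
    refine Or.inr ⟨y, hy, caps', hT, ⟨gs.erase g, ?_, hH2⟩, hs2, hsub⟩
    have h3 := h2.erase y
    simpa using h3
  | _ :: _ :: _, hl => simp at hl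

/-- weight of a value in an association list -/
def look : List (ℕ × ℕ) → ℕ → ℕ
  | [], _ => 0
  | p :: t, x => if p.1 = x then p.2 else look t x

/-- total threshold weight reached by a group sum `s` -/
def uSum : List (ℕ × ℕ) → ℕ → ℕ
  | [], _ => 0
  | p :: t, s => if p.1 ≤ s then uSum t s + p.2 else uSum t s

/-- the threshold weights, each multiplied by the number of capacities reaching the threshold -/
def capBound : List (ℕ × ℕ) → List ℕ → ℕ
  | [], _ => 0
  | p :: t, caps => capBound t caps + p.2 * cge p.1 caps

def sumLook (v : List (ℕ × ℕ)) : List ℕ → ℕ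
  | [] => 0
  | x :: xs => look v x + sumLook v xs

def allPairs (f : ℕ → ℕ → Bool) : List ℕ → Bool
  | [] => true
  | x :: xs => xs.all (f x) && allPairs f xs

def maxCap : List ℕ → ℕ
  | [] => 0
  | c :: cs => max c (maxCap cs)

/-- A dual certificate: denominator, item weights (by value), threshold weights. -/
structure Dual where
  den : ℕ
  v : List (ℕ × ℕ)
  u : List (ℕ × ℕ)

/-- The weights cover every pair of items that fits into some capacity. -/
def Dual.Valid (d : Dual) (caps items : List ℕ) : Prop :=
  (∀ p ∈ d.u, 1 ≤ p.1) ∧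
  ∀ a b : ℕ, [a, b].Subperm items → (∃ c ∈ caps, a + b ≤ c) →
    d.den ≤ look d.v a + look d.v b + uSum d.u (a + b)

def dualOK (d : Dual) (caps items : List ℕ) : Bool :=
  d.u.all (fun p => decide (1 ≤ p.1)) &&
  allPairs (fun a b => decide (maxCap caps < a + b) ||
      decide (d.den ≤ look d.v a + look d.v b + uSum d.u (a + b))) items

def sumOK (d : Dual) (caps items : List ℕ) : Bool :=
  decide (sumLook d.v items + capBound d.u caps + d.den * caps.length < d.den * items.length)

theorem le_maxCap {c : ℕ} : ∀ {caps : List ℕ}, c ∈ caps → c ≤ maxCap caps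
  | [], h => by simp at h
  | d :: ds, h => by
    rcases List.mem_cons.1 h with rfl | h'
    · simp [maxCap]
    · have := le_maxCap h'; simp [maxCap]; omega

theorem sumLook_append (v : List (ℕ × ℕ)) (l₁ l₂ : List ℕ) :
    sumLook v (l₁ ++ l₂) = sumLook v l₁ + sumLook v l₂ := by
  induction l₁ with
  | nil => simp [sumLook]
  | cons x xs ih => simp [sumLook, ih]; omega

theorem sumLook_eq (v : List (ℕ × ℕ)) (l : List ℕ) : sumLook v l = (l.map (look v)).sum := by
  induction l with
  | nil => rfl
  | cons x xs ih => simp [sumLook, ih]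

theorem sumLook_perm (v : List (ℕ × ℕ)) {l₁ l₂ : List ℕ} (h : l₁ ~ l₂) :
    sumLook v l₁ = sumLook v l₂ := by
  rw [sumLook_eq, sumLook_eq]; exact (h.map _).sum_eq

theorem allPairs_sublist {f : ℕ → ℕ → Bool} {a b : ℕ} :
    ∀ {l : List ℕ}, allPairs f l = true → [a, b] <+ l → f a b = true
  | [], _, h => by simp at h
  | x :: xs, hall, h => by
    simp only [allPairs, Bool.and_eq_true, List.all_eq_true] at hall
    rcases List.sublist_cons_iff.1 h with h' | ⟨r, hr, h'⟩
    · exact allPairs_sublist hall.2 h'
    · have hax : a = x ∧ [b] = r := by simpa using hr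
      obtain ⟨rfl, rfl⟩ := hax
      have hb : b ∈ xs := h'.subset (by simp)
      exact hall.1 b hb

theorem perm_pair {a b : ℕ} {l : List ℕ} (h : l ~ [a, b]) : l = [a, b] ∨ l = [b, a] := by
  have hlen : l.length = 2 := by simpa using h.length_eq
  match l, hlen with
  | [c, d], _ =>
    have hc : c ∈ [a, b] := h.subset (by simp)
    have hd : d ∈ [a, b] := h.subset (by simp)
    have ha : a ∈ [c, d] := h.symm.subset (by simp)
    have hb : b ∈ [c, d] := h.symm.subset (by simp)
    simp only [List.mem_cons, List.not_mem_nil, or_false] at hc hd ha hb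
    by_cases hca : c = a
    · subst hca
      have : [d] ~ [b] := by simpa using h
      have hdb : d = b := by simpa using this
      left; rw [hdb]
    · have hcb : c = b := by tauto
      subst hcb
      have h2 : [c, d] ~ [c, a] := h.trans (List.Perm.swap _ _ _)
      have : [d] ~ [a] := by simpa using h2
      have hda : d = a := by simpa using this
      right; rw [hda]

theorem dualOK_valid {d : Dual} {caps items : List ℕ} (h : dualOK d caps items = true) :
    d.Valid caps items := by
  simp only [dualOK, Bool.and_eq_true, List.all_eq_true, decide_eq_true_eq] at h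
  obtain ⟨hu, hpairs⟩ := h
  refine ⟨fun p hp => hu p hp, ?_⟩
  intro a b hsub hcap
  obtain ⟨c, hc, hac⟩ := hcap
  have hmc := le_maxCap hc
  obtain ⟨l, hl, hls⟩ := hsub
  rcases perm_pair hl with rfl | rfl
  · have := allPairs_sublist hpairs hls
    simp only [Bool.or_eq_true, decide_eq_true_eq] at this
    rcases this with h | h
    · omega
    · exact h
  · have := allPairs_sublist hpairs hls
    simp only [Bool.or_eq_true, decide_eq_true_eq] at this
    rcases this with h | h
    · omega
    · rw [Nat.add_comm b a] at h; omega

theorem Dual.Valid.mono {d : Dual} {caps caps' items items' : List ℕ} (h : d.Valid caps items)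
    (hi : items'.Subperm items) (hc : ∀ c ∈ caps', c ∈ caps) : d.Valid caps' items' := by
  refine ⟨h.1, ?_⟩
  intro a b hsub hcap
  obtain ⟨c, hcc, hac⟩ := hcap
  exact h.2 a b (hsub.trans hi) ⟨c, hc c hcc, hac⟩

theorem uSum_sum_eq (u : List (ℕ × ℕ)) (sums : List ℕ) :
    (sums.map (uSum u)).sum = capBound u sums := by
  induction u with
  | nil =>
    simp only [capBound]
    induction sums with
    | nil => rfl
    | cons s ss ih => simp [uSum]
  | cons p t ih =>
    simp only [capBound]
    rw [← ih]
    clear ih
    induction sums with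
    | nil => simp [cge]
    | cons s ss ih2 =>
      simp only [List.map_cons, List.sum_cons, cge_cons]
      rw [ih2]
      by_cases h : p.1 ≤ s
      · simp [uSum, h]; ring
      · simp [uSum, h]; ring

theorem capBound_mono {u : List (ℕ × ℕ)} {caps sums : List ℕ}
    (hu : ∀ p ∈ u, 1 ≤ p.1) (hH : HallOK caps sums) : capBound u sums ≤ capBound u caps := by
  induction u with
  | nil => simp [capBound]
  | cons p t ih =>
    simp only [capBound]
    have h1 := ih (fun q hq => hu q (by simp [hq]))
    have h2 := hH p.1 (hu p (by simp))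
    have h3 : p.2 * cge p.1 sums ≤ p.2 * cge p.1 caps := Nat.mul_le_mul_left _ h2
    omega

theorem leaf_aux (D : ℕ) (v u : List (ℕ × ℕ)) :
    ∀ (gs : List (List ℕ)),
      (∀ g ∈ gs, D * g.length ≤ sumLook v g + uSum u g.sum + D * (if 1 ≤ g.sum then 1 else 0)) →
      D * gs.flatten.length ≤
        sumLook v gs.flatten + ((gs.map List.sum).map (uSum u)).sum + D * cge 1 (gs.map List.sum)
  | [], _ => by simp [sumLook, cge]
  | g :: gs, h => by
    have ih := leaf_aux D v u gs (fun g' hg' => h g' (by simp [hg']))
    have hg := h g (by simp)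
    simp only [List.flatten_cons, List.length_append, sumLook_append, List.map_cons, List.sum_cons,
      cge_cons]
    rw [Nat.mul_add, Nat.mul_add]
    omega

theorem leaf_sound {lo hi : ℕ} {caps items : List ℕ} (lf : Dual) (hlo : 1 ≤ lo) (hhi : hi < 3 * lo)
    (hitems : ∀ y ∈ items, lo ≤ y) (hcaps : ∀ c ∈ caps, c ≤ hi)
    (hv : lf.Valid caps items) (hok : sumOK lf caps items = true) : ¬ GFits caps items := by
  rintro ⟨gs, hP, hH⟩
  simp only [sumOK, decide_eq_true_eq] at hok
  obtain ⟨hu, hpairs⟩ := hv
  have hkey : ∀ g ∈ gs, lf.den * g.length ≤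
      sumLook lf.v g + uSum lf.u g.sum + lf.den * (if 1 ≤ g.sum then 1 else 0) := by
    intro g hg
    have hlen := group_len hlo hhi hitems hcaps hP hH hg
    have hmem : ∀ x ∈ g, lo ≤ x := fun x hx =>
      hitems x (hP.subset (List.mem_flatten.2 ⟨g, hg, hx⟩))
    match g, hg, hlen, hmem with
    | [], _, _, _ => simp
    | [a], _, _, hm =>
      have ha : lo ≤ a := hm a (by simp)
      have h1 : 1 ≤ a := by omega
      simp [h1]
    | [a, b], hg', _, hm =>
      have ha : lo ≤ a := hm a (by simp)
      have h1 : 1 ≤ a + b := by omega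
      have hsub : [a, b].Subperm items :=
        (List.sublist_flatten_of_mem hg').subperm.trans hP.subperm
      have hcap : ∃ c ∈ caps, a + b ≤ c := by
        obtain ⟨c, hc, hgc⟩ := group_sum_le_cap hH hg' (by simpa using h1)
        exact ⟨c, hc, by simpa using hgc⟩
      have hcov := hpairs a b hsub hcap
      simp only [List.length_cons, List.length_nil, sumLook, List.sum_cons, List.sum_nil, add_zero,
        h1, if_true]
      omega
    | _ :: _ :: _ :: _, _, hl, _ => simp at hl
  have h1 := leaf_aux lf.den lf.v lf.u gs hkey
  rw [uSum_sum_eq] at h1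
  have h2 := capBound_mono (fun p hp => hu p hp) hH
  have h3 : cge 1 (gs.map List.sum) ≤ caps.length :=
    le_trans (hH 1 le_rfl) (cge_le_length 1 caps)
  have h4 : sumLook lf.v gs.flatten = sumLook lf.v items := sumLook_perm lf.v hP
  have h5 : gs.flatten.length = items.length := hP.length_eq
  have h6 : lf.den * cge 1 (gs.map List.sum) ≤ lf.den * caps.length := Nat.mul_le_mul_left _ h3
  rw [h4, h5] at h1
  omega

/-- certificate tokens (pre-order): a leaf names a dual of the pool, a node names the item on
which to branch -/
inductive Tok where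
  | leaf (d : ℕ)
  | node (x : ℕ)

/-- remove adjacent duplicates -/
def dd : List ℕ → List ℕ
  | [] => []
  | [y] => [y]
  | y :: z :: t => if y = z then dd (z :: t) else y :: dd (z :: t)

theorem mem_dd {y : ℕ} : ∀ {l : List ℕ}, y ∈ l → y ∈ dd l
  | [], h => by simp at h
  | [a], h => by simpa [dd] using h
  | a :: b :: t, h => by
    by_cases hab : a = b
    · subst hab
      have h' : y ∈ a :: t := by
        rcases List.mem_cons.1 h with rfl | h2
        · simp
        · exact h2
      simpa [dd] using mem_dd h'
    · rcases List.mem_cons.1 h with rfl | h2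
      · simp [dd, hab]
      · have := mem_dd h2
        simp [dd, hab, this]

/-- the partner branches of a node -/
def loopY (f : List Tok → List ℕ → List ℕ → Option (List Tok)) (caps : List ℕ) (x : ℕ)
    (rest : List ℕ) : List ℕ → List Tok → Option (List Tok)
  | [], ts => some ts
  | y :: ys, ts =>
    match takeCap (x + y) caps with
    | none => loopY f caps x rest ys ts
    | some caps' =>
      match f ts caps' (rest.erase y) with
      | none => none
      | some ts' => loopY f caps x rest ys ts'

/-- Certificate checker: returns the unread tokens if the subtree refutes `GFits caps items`. -/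
def chk (pool : List Dual) : ℕ → List Tok → List ℕ → List ℕ → Option (List Tok)
  | 0, _, _, _ => none
  | _ + 1, [], _, _ => none
  | _ + 1, Tok.leaf d :: ts, caps, items =>
    match pool[d]? with
    | none => none
    | some lf => if sumOK lf caps items then some ts else none
  | fuel + 1, Tok.node x :: ts, caps, items =>
    if x ∈ items then
      match (match takeCap x caps with
             | none => some ts
             | some caps' => chk pool fuel ts caps' (items.erase x)) with
      | none => none
      | some ts' => loopY (chk pool fuel) caps x (items.erase x) (dd (items.erase x)) ts'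
    else none

theorem loopY_sound {f : List Tok → List ℕ → List ℕ → Option (List Tok)} {caps : List ℕ} {x : ℕ}
    {rest : List ℕ} : ∀ (ys : List ℕ) (ts ts' : List Tok),
    loopY f caps x rest ys ts = some ts' → ∀ y ∈ ys, ∀ caps', takeCap (x + y) caps = some caps' →
      ∃ t₁ t₂, f t₁ caps' (rest.erase y) = some t₂
  | [], _, _, _, y, hy, _, _ => by simp at hy
  | z :: zs, ts, ts', h, y, hy, caps', hT => by
    simp only [loopY] at h
    rcases List.mem_cons.1 hy with rfl | hy'
    · rw [hT] at h
      simp only at h
      cases hf : f ts caps' (rest.erase y) with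
      | none => rw [hf] at h; simp at h
      | some t₂ => exact ⟨ts, t₂, hf⟩
    · cases hz : takeCap (x + z) caps with
      | none =>
        rw [hz] at h
        exact loopY_sound zs ts ts' h y hy' caps' hT
      | some capz =>
        rw [hz] at h
        simp only at h
        cases hf : f ts capz (rest.erase z) with
        | none => rw [hf] at h; simp at h
        | some t₂ =>
          rw [hf] at h
          exact loopY_sound zs t₂ ts' h y hy' caps' hT

theorem GFits.perm_items {caps items items' : List ℕ} (h : GFits caps items) (hp : items ~ items') :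
    GFits caps items' := by
  obtain ⟨gs, hP, hH⟩ := h
  exact ⟨gs, hP.trans hp, hH⟩

theorem chk_sound (pool : List Dual) {lo hi : ℕ} (hlo : 1 ≤ lo) (hhi : hi < 3 * lo) :
    ∀ (fuel : ℕ) (ts : List Tok) (caps items : List ℕ) (ts' : List Tok),
      chk pool fuel ts caps items = some ts' →
      (∀ d ∈ pool, d.Valid caps items) → (∀ y ∈ items, lo ≤ y) → (∀ c ∈ caps, c ≤ hi) →
      caps.Pairwise (· ≤ ·) → ¬ GFits caps items
  | 0, _, _, _, _, h, _, _, _, _ => by simp [chk] at h
  | fuel + 1, [], _, _, _, h, _, _, _, _ => by simp [chk] at h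
  | fuel + 1, Tok.leaf d :: ts, caps, items, ts', h, hv, hitems, hcaps, _ => by
    simp only [chk] at h
    cases hd : pool[d]? with
    | none => rw [hd] at h; simp at h
    | some lf =>
      rw [hd] at h
      simp only at h
      have hmem : lf ∈ pool := List.mem_of_getElem? hd
      by_cases hs : sumOK lf caps items = true
      · exact leaf_sound lf hlo hhi hitems hcaps (hv lf hmem) hs
      · simp [hs] at h
  | fuel + 1, Tok.node x :: ts, caps, items, ts', h, hv, hitems, hcaps, hsorted => by
    simp only [chk] at h
    by_cases hx : x ∈ items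
    · simp only [hx, if_true] at h
      intro hG
      have hperm : items ~ x :: items.erase x := List.perm_cons_erase hx
      have hG2 := hG.perm_items hperm
      have hitems2 : ∀ y ∈ x :: items.erase x, lo ≤ y := fun y hy => hitems y (hperm.symm.subset hy)
      have hsubp : (items.erase x).Subperm items := (List.erase_sublist).subperm
      have hrest : ∀ y ∈ items.erase x, lo ≤ y := fun y hy => hitems y (hsubp.subset hy)
      rcases GFits.branch hlo hhi hitems2 hcaps hsorted hG2 with
        ⟨caps', hT, hG', hs', hsub⟩ | ⟨y, hy, caps', hT, hG', hs', hsub⟩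
      · rw [hT] at h
        simp only at h
        cases hc : chk pool fuel ts caps' (items.erase x) with
        | none => rw [hc] at h; simp at h
        | some t₁ =>
          exact chk_sound pool hlo hhi fuel ts caps' (items.erase x) t₁ hc
            (fun d hd => (hv d hd).mono hsubp hsub) hrest (fun c hc' => hcaps c (hsub c hc')) hs' hG'
      · cases hA : (match takeCap x caps with
             | none => some ts
             | some caps' => chk pool fuel ts caps' (items.erase x)) with
        | none => rw [hA] at h; simp at h
        | some t₀ =>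
          rw [hA] at h
          simp only at h
          obtain ⟨t₁, t₂, hc⟩ := loopY_sound _ _ _ h y (mem_dd hy) caps' hT
          have hsubp2 : ((items.erase x).erase y).Subperm items :=
            ((List.erase_sublist).subperm).trans hsubp
          exact chk_sound pool hlo hhi fuel t₁ caps' ((items.erase x).erase y) t₂ hc
            (fun d hd => (hv d hd).mono hsubp2 hsub)
            (fun z hz => hitems z (hsubp2.subset hz)) (fun c hc' => hcaps c (hsub c hc')) hs' hG'
    · simp [hx] at h

def sortedB : List ℕ → Bool
  | [] => true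
  | [_] => true
  | a :: b :: t => decide (a ≤ b) && sortedB (b :: t)

theorem sortedB_pairwise : ∀ {l : List ℕ}, sortedB l = true → l.Pairwise (· ≤ ·)
  | [], _ => List.Pairwise.nil
  | [a], _ => by simp
  | a :: b :: t, h => by
    simp only [sortedB, Bool.and_eq_true, decide_eq_true_eq] at h
    have ih := sortedB_pairwise h.2
    refine List.Pairwise.cons ?_ ih
    intro c hc
    rcases List.mem_cons.1 hc with rfl | hc'
    · exact h.1
    · exact le_trans h.1 ((List.pairwise_cons.1 ih).1 c hc')

/-- the complete check -/
def fullCheck (pool : List Dual) (fuel : ℕ) (toks : List Tok) (caps items : List ℕ) (lo hi : ℕ) :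
    Bool :=
  decide (1 ≤ lo) && decide (hi < 3 * lo) && items.all (fun y => decide (lo ≤ y)) &&
  caps.all (fun c => decide (c ≤ hi)) && sortedB caps &&
  pool.all (fun d => dualOK d caps items) && (chk pool fuel toks caps items).isSome

theorem fullCheck_sound {pool : List Dual} {fuel : ℕ} {toks : List Tok} {caps items : List ℕ}
    {lo hi : ℕ} (h : fullCheck pool fuel toks caps items lo hi = true) : ¬ GFits caps items := by
  simp only [fullCheck, Bool.and_eq_true, List.all_eq_true, decide_eq_true_eq] at h
  obtain ⟨⟨⟨⟨⟨⟨hlo, hhi⟩, hitems⟩, hcaps⟩, hsorted⟩, hpool⟩, hchk⟩ := h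
  obtain ⟨ts', hts⟩ := Option.isSome_iff_exists.1 hchk
  exact chk_sound pool hlo hhi fuel toks caps items ts' hts
    (fun d hd => dualOK_valid (hpool d hd)) hitems hcaps (sortedB_pairwise hsorted)

end Vale.Agent.Helper12
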