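import Mathlib

/-!
Combinatorial core for lower bounds on bin packing optima (natural number sizes).
`Fits caps items` : the items can be distributed into bins with the given capacities.
-/

namespace Vale.Agent.Helper12

open List

/-- number of entries of the list that are at least `th` -/
def cge (th : ℕ) : List ℕ → ℕ
  | [] => 0
  | x :: xs => if th ≤ x then cge th xs + 1 else cge th xs

theorem cge_eq_countP (th : ℕ) (l : List ℕ) :
    cge th l = l.countP (fun x => decide (th ≤ x)) := by
  induction l with
  | nil => rfl
  | cons x xs ih =>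
    by_cases h : th ≤ x
    · simp [cge, h, ih]
    · simp [cge, h, ih]

theorem cge_perm {th : ℕ} {l₁ l₂ : List ℕ} (h : l₁ ~ l₂) : cge th l₁ = cge th l₂ := by
  rw [cge_eq_countP, cge_eq_countP]; exact h.countP_eq _

theorem cge_append (th : ℕ) (l₁ l₂ : List ℕ) : cge th (l₁ ++ l₂) = cge th l₁ + cge th l₂ := by
  simp [cge_eq_countP]

theorem cge_cons (th x : ℕ) (l : List ℕ) :
    cge th (x :: l) = cge th l + (if th ≤ x then 1 else 0) := by
  by_cases h : th ≤ x <;> simp [cge, h]

theorem cge_le_length (th : ℕ) (l : List ℕ) : cge th l ≤ l.length := by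
  rw [cge_eq_countP]; exact List.countP_le_length

theorem cge_mono {th th' : ℕ} (h : th ≤ th') (l : List ℕ) : cge th' l ≤ cge th l := by
  induction l with
  | nil => simp [cge]
  | cons x xs ih =>
    rw [cge_cons, cge_cons]
    by_cases h1 : th' ≤ x
    · have h2 : th ≤ x := le_trans h h1
      simp [h1, h2, ih]
    · by_cases h2 : th ≤ x
      · simp [h1, h2]; omega
      · simp [h1, h2, ih]

theorem cge_pos {th : ℕ} {l : List ℕ} (h : 0 < cge th l) : ∃ c ∈ l, th ≤ c := by
  induction l with
  | nil => simp [cge] at h
  | cons x xs ih =>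
    by_cases h1 : th ≤ x
    · exact ⟨x, by simp, h1⟩
    · rw [cge_cons] at h
      simp [h1] at h
      obtain ⟨c, hc, hc'⟩ := ih h
      exact ⟨c, by simp [hc], hc'⟩

theorem cge_pos_of_mem {th c : ℕ} {l : List ℕ} (hc : c ∈ l) (h : th ≤ c) : 0 < cge th l := by
  induction l with
  | nil => simp at hc
  | cons x xs ih =>
    rw [cge_cons]
    rcases List.mem_cons.1 hc with rfl | hc'
    · simp [h]
    · have := ih hc'; omega

theorem cge_eq_zero {th : ℕ} {l : List ℕ} (h : ∀ x ∈ l, x < th) : cge th l = 0 := by
  induction l with
  | nil => rfl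
  | cons x xs ih =>
    rw [cge_cons]
    have h1 : ¬ th ≤ x := by have := h x (by simp); omega
    simp [h1]
    exact ih (fun y hy => h y (by simp [hy]))

theorem cge_eq_length {th : ℕ} {l : List ℕ} (h : ∀ x ∈ l, th ≤ x) : cge th l = l.length := by
  induction l with
  | nil => rfl
  | cons x xs ih =>
    rw [cge_cons]
    have h1 : th ≤ x := h x (by simp)
    simp [h1]
    exact ih (fun y hy => h y (by simp [hy]))

/-- The items can be distributed into bins whose capacities are the entries of `caps`. -/
def Fits (caps items : List ℕ) : Prop :=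
  ∃ (gs : List (List ℕ)) (cs : List ℕ),
    cs ~ caps ∧ List.Forall₂ (fun g c => g.sum ≤ c) gs cs ∧ gs.flatten ~ items

theorem forall₂_append_left {α β : Type*} {R : α → β → Prop} :
    ∀ {l₁ l₂ : List α} {u : List β}, List.Forall₂ R (l₁ ++ l₂) u →
      ∃ u₁ u₂, u = u₁ ++ u₂ ∧ List.Forall₂ R l₁ u₁ ∧ List.Forall₂ R l₂ u₂
  | [], l₂, u, h => ⟨[], u, rfl, List.Forall₂.nil, h⟩
  | a :: l₁, l₂, u, h => by
    rw [List.cons_append, List.forall₂_cons_left_iff] at h
    obtain ⟨b, u', hab, hrest, rfl⟩ := h
    obtain ⟨u₁, u₂, rfl, h1, h2⟩ := forall₂_append_left hrest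
    exact ⟨b :: u₁, u₂, rfl, List.Forall₂.cons hab h1, h2⟩

theorem mem_le_sum {x : ℕ} {g : List ℕ} (h : x ∈ g) : x ≤ g.sum := by
  induction g with
  | nil => simp at h
  | cons y ys ih =>
    rcases List.mem_cons.1 h with rfl | h'
    · simp
    · have := ih h'; simp; omega

/-- Peeling one item: it lies in some bin, whose capacity is then reduced. -/
theorem Fits.peel {caps items : List ℕ} {x : ℕ} (h : Fits caps (x :: items)) :
    ∃ c ∈ caps, x ≤ c ∧ Fits ((c - x) :: caps.erase c) items := by
  obtain ⟨gs, cs, hcs, hF, hP⟩ := h
  have hx : x ∈ gs.flatten := hP.symm.subset (by simp)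
  obtain ⟨g, hg, hxg⟩ := List.mem_flatten.1 hx
  obtain ⟨l₁, l₂, rfl⟩ := List.append_of_mem hg
  obtain ⟨u₁, u₂', rfl, h1, h2⟩ := forall₂_append_left hF
  rw [List.forall₂_cons_left_iff] at h2
  obtain ⟨c, u₂, hgc, h2, rfl⟩ := h2
  have hc : c ∈ caps := hcs.subset (by simp)
  have hsum : x + (g.erase x).sum = g.sum := List.sum_erase hxg
  have hperm1 : (c :: (u₁ ++ u₂)) ~ caps := by
    refine List.Perm.trans ?_ hcs
    exact (List.perm_middle).symm
  have hperm2 : (u₁ ++ u₂) ~ caps.erase c := by
    have := hperm1.erase c
    simpa using this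
  refine ⟨c, hc, by omega, (g.erase x) :: (l₁ ++ l₂), (c - x) :: (u₁ ++ u₂), ?_, ?_, ?_⟩
  · exact List.Perm.cons _ hperm2
  · refine List.Forall₂.cons (by omega) ?_
    exact List.rel_append h1 h2
  · have h3 : (l₁ ++ g :: l₂).flatten ~ x :: (g.erase x ++ (l₁ ++ l₂).flatten) := by
      simp only [List.flatten_append, List.flatten_cons]
      have hg' : g ~ x :: g.erase x := List.perm_cons_erase hxg
      calc l₁.flatten ++ (g ++ l₂.flatten) ~ g ++ (l₁.flatten ++ l₂.flatten) := by
            rw [← List.append_assoc, ← List.append_assoc]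
            exact List.Perm.append_right _ List.perm_append_comm
        _ ~ (x :: g.erase x) ++ (l₁.flatten ++ l₂.flatten) := List.Perm.append_right _ hg'
        _ = x :: (g.erase x ++ (l₁.flatten ++ l₂.flatten)) := rfl
    have h4 := h3.symm.trans hP
    simpa using h4.cons_inv

/-- Place the forced items one after the other; each may go into any bin (one candidate per
distinct capacity value); the remaining items are handled by the continuation `K`. -/
def placeAll : List ℕ → List ℕ → (List ℕ → Bool) → Bool
  | caps, [], K => K caps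
  | caps, x :: xs, K =>
      caps.dedup.any (fun c => decide (x ≤ c) && placeAll ((c - x) :: caps.erase c) xs K)

theorem placeAll_sound (items : List ℕ) (K : List ℕ → Bool)
    (hK : ∀ caps, Fits caps items → K caps = true) :
    ∀ (forced caps : List ℕ), Fits caps (forced ++ items) → placeAll caps forced K = true
  | [], caps, h => by simpa [placeAll] using hK caps h
  | x :: xs, caps, h => by
    obtain ⟨c, hc, hxc, hfit⟩ := Fits.peel (x := x) (items := xs ++ items) (by simpa using h)
    have ih := placeAll_sound items K hK xs _ hfit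
    simp only [placeAll, List.any_eq_true]
    exact ⟨c, List.mem_dedup.2 hc, by simp [hxc, ih]⟩

/-- Hall-type condition: for every threshold at least 1, at most as many group sums as
capacities reach the threshold. -/
def HallOK (caps sums : List ℕ) : Prop :=
  ∀ th : ℕ, 1 ≤ th → cge th sums ≤ cge th caps

/-- The items can be split into groups whose sums satisfy the Hall-type condition. -/
def GFits (caps items : List ℕ) : Prop :=
  ∃ gs : List (List ℕ), gs.flatten ~ items ∧ HallOK caps (gs.map List.sum)

theorem forall₂_cge_le {th : ℕ} :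
    ∀ {gs : List (List ℕ)} {cs : List ℕ}, List.Forall₂ (fun g c => g.sum ≤ c) gs cs →
      cge th (gs.map List.sum) ≤ cge th cs
  | _, _, List.Forall₂.nil => by simp [cge]
  | _, _, List.Forall₂.cons (a := g) (b := c) hgc hrest => by
    have ih := forall₂_cge_le (th := th) hrest
    rw [List.map_cons, cge_cons, cge_cons]
    by_cases h1 : th ≤ g.sum
    · have h2 : th ≤ c := le_trans h1 hgc
      simp [h1, h2, ih]
    · by_cases h2 : th ≤ c
      · simp [h1, h2]; omega
      · simp [h1, h2, ih]

theorem Fits.gfits {caps items : List ℕ} (h : Fits caps items) : GFits caps items := by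
  obtain ⟨gs, cs, hcs, hF, hP⟩ := h
  refine ⟨gs, hP, fun th _ => ?_⟩
  rw [← cge_perm hcs]
  exact forall₂_cge_le hF

/-- Remove the first capacity that is at least `s` (for ascending `caps`: the smallest one). -/
def takeCap (s : ℕ) : List ℕ → Option (List ℕ)
  | [] => none
  | c :: cs => if s ≤ c then some cs else (takeCap s cs).map (fun r => c :: r)

theorem takeCap_spec {s : ℕ} : ∀ {caps caps' : List ℕ}, takeCap s caps = some caps' →
    ∃ pre c post, caps = pre ++ c :: post ∧ (∀ x ∈ pre, x < s) ∧ s ≤ c ∧ caps' = pre ++ post
  | [], _, h => by simp [takeCap] at h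
  | c :: cs, caps', h => by
    by_cases hc : s ≤ c
    · simp [takeCap, hc] at h
      exact ⟨[], c, cs, rfl, by simp, hc, by simp [h]⟩
    · simp only [takeCap, hc, if_false, Option.map_eq_some_iff] at h
      obtain ⟨r, hr, rfl⟩ := h
      obtain ⟨pre, c', post, rfl, hpre, hc', rfl⟩ := takeCap_spec hr
      refine ⟨c :: pre, c', post, rfl, ?_, hc', rfl⟩
      intro x hx
      rcases List.mem_cons.1 hx with rfl | hx'
      · omega
      · exact hpre x hx'

theorem takeCap_none {s : ℕ} : ∀ {caps : List ℕ}, takeCap s caps = none → ∀ x ∈ caps, x < s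
  | [], _ => by simp
  | c :: cs, h => by
    by_cases hc : s ≤ c
    · simp [takeCap, hc] at h
    · simp only [takeCap, hc, if_false, Option.map_eq_none_iff] at h
      intro x hx
      rcases List.mem_cons.1 hx with rfl | hx'
      · omega
      · exact takeCap_none h x hx'

/-- Assigning a group sum to the smallest capacity that can take it preserves the Hall-type
condition for the remaining sums. -/
theorem hall_takeCap {caps sums : List ℕ} {s : ℕ} (hs : 1 ≤ s)
    (hsorted : caps.Pairwise (· ≤ ·)) (h : HallOK caps (s :: sums)) :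
    ∃ caps', takeCap s caps = some caps' ∧ HallOK caps' sums ∧ caps'.Pairwise (· ≤ ·) ∧
      (∀ c ∈ caps', c ∈ caps) := by
  have h0 := h s hs
  rw [cge_cons] at h0
  simp only [le_refl, if_true] at h0
  have hpos : 0 < cge s caps := by omega
  cases hT : takeCap s caps with
  | none =>
    have := cge_eq_zero (takeCap_none hT)
    omega
  | some caps' =>
    obtain ⟨pre, c, post, rfl, hpre, hc, rfl⟩ := takeCap_spec hT
    have hpost : ∀ x ∈ post, c ≤ x := by
      have h1 := (List.pairwise_append.1 hsorted).2.1
      exact (List.pairwise_cons.1 h1).1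
    refine ⟨_, rfl, ?_, ?_, ?_⟩
    · intro th hth
      have hH := h th hth
      rw [cge_cons, cge_append, cge_cons] at hH
      rw [cge_append]
      by_cases h1 : th ≤ s
      · have h2 : th ≤ c := le_trans h1 hc
        simp only [h1, h2, if_true] at hH
        omega
      · simp only [h1, if_false] at hH
        by_cases h2 : th ≤ c
        · have e1 : cge th pre = 0 := cge_eq_zero (fun x hx => by have := hpre x hx; omega)
          have e2 : cge th post = post.length :=
            cge_eq_length (fun x hx => le_trans h2 (hpost x hx))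
          have e3 : cge s pre = 0 := cge_eq_zero hpre
          have e4 : cge s post = post.length :=
            cge_eq_length (fun x hx => le_trans hc (hpost x hx))
          have h5 := h s hs
          rw [cge_cons, cge_append, cge_cons] at h5
          simp only [le_refl, hc, if_true] at h5
          have h6 : cge th sums ≤ cge s sums := cge_mono (by omega) sums
          omega
        · simp only [h2, if_false] at hH
          omega
    · exact hsorted.sublist (by simp)
    · intro x hx
      rcases List.mem_append.1 hx with hx | hx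
      · simp [hx]
      · simp [hx]

end Vale.Agent.Helper12
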